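import Crest.Agent.R291.Sparse

/-!
Row 291.  The signed chain expansion that removes the clauses with many free variables.
-/

set_option autoImplicit false

namespace Crest.Agent.R291

open Finset

theorem sum_le_of_injOn {α β : Type*} [DecidableEq β] {s : Finset α} {t : Finset β} (e : α → β)
    (he : Set.InjOn e s) (hst : ∀ a ∈ s, e a ∈ t) (g : β → ℝ) (hg : ∀ b ∈ t, 0 ≤ g b) :
    ∑ a ∈ s, g (e a) ≤ ∑ b ∈ t, g b := by
  rw [← sum_image he]
  refine sum_le_sum_of_subset_of_nonneg (fun b hb => ?_) fun b hb _ => hg b hb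
  obtain ⟨a, ha, rfl⟩ := mem_image.1 hb
  exact hst a ha

section Chain

variable {V : Type*} [Fintype V] [DecidableEq V]

/-- The points that agree with `x` outside `S`. -/
def fib (S : Finset V) (x : V → Bool) : Finset (V → Bool) :=
  univ.filter fun y => ∀ v, v ∉ S → y v = x v

theorem mem_fib {S : Finset V} {x y : V → Bool} : y ∈ fib S x ↔ ∀ v, v ∉ S → y v = x v := by
  simp [fib]

theorem card_fib (S : Finset V) (x : V → Bool) : #(fib S x) = 2 ^ #S := by
  have : fib S x = Fintype.piFinset fun v => if v ∈ S then univ else {x v} := by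
    ext y
    rw [mem_fib, Fintype.mem_piFinset]
    refine forall_congr' fun v => ?_
    by_cases h : v ∈ S <;> simp [h]
  rw [this, Fintype.card_piFinset]
  have : ∀ v, #(if v ∈ S then (univ : Finset Bool) else {x v}) = if v ∈ S then 2 else 1 := by
    intro v; split_ifs <;> simp
  simp only [this]
  rw [prod_ite_mem, univ_inter, prod_const]

theorem mem_fib_comm {S : Finset V} {x y : V → Bool} : y ∈ fib S x ↔ x ∈ fib S y := by
  simp only [mem_fib]
  exact ⟨fun h v hv => (h v hv).symm, fun h v hv => (h v hv).symm⟩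

theorem sum_sum_fib (S : Finset V) (G : (V → Bool) → ℝ) :
    ∑ x, ∑ y ∈ fib S x, G y = 2 ^ #S * ∑ y, G y := by
  rw [sum_comm' (t' := univ) (s' := fun y => fib S y) (by simp [mem_fib_comm]), mul_sum]
  refine sum_congr rfl fun y _ => ?_
  rw [sum_const, card_fib, nsmul_eq_mul]; push_cast; ring

/-- A clause is given by its variables and the assignment of them that violates it. -/
abbrev Cl (V : Type*) := Finset V × (V → Bool)

/-- `y` violates the clause. -/
def viol (c : Cl V) (y : V → Bool) : Prop := ∀ v ∈ c.1, y v = c.2 v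

/-- `x` violates the clause outside `S`. -/
def off (S : Finset V) (c : Cl V) (x : V → Bool) : Prop := ∀ v ∈ c.1, v ∉ S → x v = c.2 v

/-- `y` satisfies all clauses of the list. -/
def SatC (C : List (Cl V)) (y : V → Bool) : Prop := ∀ c ∈ C, ¬ viol c y

/-- The literal `(v, b)` is true when `y v ≠ b`. -/
def lsat (l : V × Bool) (y : V → Bool) : Prop := y l.1 ≠ l.2

open Classical in
/-- The number of terms of the chain expansion. -/
noncomputable def ch (J : ℕ) : List (Cl V) → Finset V → (V → Bool) → ℝ
  | [], _, _ => 1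
  | c :: C, S, x => (if S ∩ c.1 = ∅ ∧ viol c x then 0 else ch J C S x) +
      (if J < #(S ∩ c.1) ∧ off S c x then ch J C (S \ c.1) (c.1.piecewise c.2 x) else 0)

omit [Fintype V] in
theorem ch_nonneg (J : ℕ) (C : List (Cl V)) : ∀ S x, 0 ≤ ch J C S x := by
  induction C with
  | nil => intro S x; simp [ch]
  | cons c C ih =>
      intro S x
      rw [ch]
      refine add_nonneg ?_ ?_ <;> split_ifs <;> first | exact le_rfl | exact ih _ _

open Classical in
/-- The discrepancy on a fibre. -/
noncomputable def dsc (ψ : (V → Bool) → ℝ) (C : List (Cl V)) (F : Finset (Finset (V × Bool)))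
    (S : Finset V) (x : V → Bool) : ℝ :=
  ∑ y ∈ fib S x, if Sat lsat F y ∧ SatC C y then ψ y else 0

omit [Fintype V] [DecidableEq V] in
theorem satC_cons (c : Cl V) (C : List (Cl V)) (y : V → Bool) :
    SatC (c :: C) y ↔ ¬ viol c y ∧ SatC C y := by simp [SatC]

theorem chain_disc (J : ℕ) (ψ : (V → Bool) → ℝ) (S₀ : Finset V) (x₀ : V → Bool) {B : ℝ}
    (hB : ∀ F ⊆ small (S₀ ×ˢ univ) J, ∀ R ⊆ S₀ ×ˢ univ,
      |disc (fib S₀ x₀) ψ lsat F R| ≤ B) (C : List (Cl V)) :
    ∀ S ⊆ S₀, ∀ x ∈ fib S₀ x₀, ∀ F ⊆ small (S₀ ×ˢ univ) J, |dsc ψ C F S x| ≤ ch J C S x * B := by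
  classical
  induction C with
  | nil =>
      intro S hS x hx F hF
      have e : dsc ψ [] F S x =
          disc (fib S₀ x₀) ψ lsat F ((S₀ \ S).image fun v => (v, x v)) := by
        have e1 : fib S x = (fib S₀ x₀).filter
            fun y => ∀ l ∈ (S₀ \ S).image fun v => (v, x v), ¬ lsat l y := by
          ext y
          rw [mem_filter, mem_fib, mem_fib]
          rw [mem_fib] at hx
          simp only [lsat, forall_mem_image, mem_sdiff, not_not]
          constructor
          · intro h
            exact ⟨fun v hv => (h v fun h' => hv (hS h')).trans (hx v hv), fun v hv => h v hv.2⟩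
          · rintro ⟨h1, h2⟩ v hv
            by_cases h0 : v ∈ S₀
            · exact h2 ⟨h0, hv⟩
            · exact (h1 v h0).trans (hx v h0).symm
        unfold dsc disc
        rw [e1, sum_filter]
        refine sum_congr rfl fun y _ => ?_
        by_cases h1 : ∀ l ∈ (S₀ \ S).image fun v => (v, x v), ¬ lsat l y
        · rw [if_pos h1]
          congr 1
          exact propext ⟨fun h => ⟨h.1, h1⟩, fun h => ⟨h.1, by simp [SatC]⟩⟩
        · rw [if_neg h1, if_neg fun h => h1 h.2]
      rw [e, ch, one_mul]
      refine hB F hF _ fun l hl => ?_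
      obtain ⟨v, hv, rfl⟩ := mem_image.1 hl
      exact mem_product.2 ⟨(mem_sdiff.1 hv).1, mem_univ _⟩
  | cons c C ih =>
      intro S hS x hx F hF
      rw [ch]
      by_cases ho : off S c x
      swap
      · have e : dsc ψ (c :: C) F S x = dsc ψ C F S x := by
          unfold dsc
          refine sum_congr rfl fun y hy => ?_
          have : ¬ viol c y := fun h => ho fun v hv hvS =>
            (mem_fib.1 hy v hvS).symm.trans (h v hv)
          simp only [satC_cons, this, not_false_eq_true, true_and]
        rw [e, if_neg fun h => ho fun v hv _ => h.2 v hv, if_neg fun h => ho h.2, add_zero]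
        exact ih S hS x hx F hF
      by_cases hw : J < #(S ∩ c.1)
      · have hne : S ∩ c.1 ≠ ∅ := fun h => by simp [h] at hw
        rw [if_neg fun h => hne h.1, if_pos ⟨hw, ho⟩]
        have e1 : fib (S \ c.1) (c.1.piecewise c.2 x) = (fib S x).filter (viol c) := by
          ext y
          rw [mem_filter, mem_fib, mem_fib]
          constructor
          · intro h
            refine ⟨fun v hv => ?_, fun v hv => ?_⟩
            · rw [h v fun h' => hv (mem_sdiff.1 h').1]
              by_cases hc : v ∈ c.1
              · rw [piecewise_eq_of_mem _ _ _ hc, ho v hc hv]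
              · rw [piecewise_eq_of_notMem _ _ _ hc]
            · rw [h v fun h' => (mem_sdiff.1 h').2 hv, piecewise_eq_of_mem _ _ _ hv]
          · rintro ⟨h1, h2⟩ v hv
            by_cases hc : v ∈ c.1
            · rw [piecewise_eq_of_mem _ _ _ hc, h2 v hc]
            · rw [piecewise_eq_of_notMem _ _ _ hc]
              exact h1 v fun h' => hv (mem_sdiff.2 ⟨h', hc⟩)
        have e : dsc ψ (c :: C) F S x =
            dsc ψ C F S x - dsc ψ C F (S \ c.1) (c.1.piecewise c.2 x) := by
          unfold dsc
          rw [e1, sum_filter, ← sum_sub_distrib]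
          refine sum_congr rfl fun y _ => ?_
          by_cases hv : viol c y
          · simp [satC_cons, hv]
          · simp [satC_cons, hv]
        have hx' : c.1.piecewise c.2 x ∈ fib S₀ x₀ := by
          rw [mem_fib] at hx ⊢
          intro v hv
          by_cases hc : v ∈ c.1
          · rw [piecewise_eq_of_mem _ _ _ hc, ← ho v hc fun h => hv (hS h), hx v hv]
          · rw [piecewise_eq_of_notMem _ _ _ hc, hx v hv]
        rw [e, add_mul]
        exact (abs_sub _ _).trans (add_le_add (ih S hS x hx F hF)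
          (ih _ (sdiff_subset.trans hS) _ hx' F hF))
      rw [if_neg (c := J < #(S ∩ c.1) ∧ _) fun h => hw h.1, add_zero]
      by_cases hz : S ∩ c.1 = ∅ ∧ viol c x
      · rw [if_pos hz]
        have e : dsc ψ (c :: C) F S x = 0 := by
          unfold dsc
          refine sum_eq_zero fun y hy => if_neg fun h => ((satC_cons _ _ _).1 h.2).1 ?_
          intro v hv
          rw [mem_fib.1 hy v fun h' => ?_, hz.2 v hv]
          have : v ∈ S ∩ c.1 := mem_inter.2 ⟨h', hv⟩
          simp [hz.1] at this
        simp [e]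
      · rw [if_neg hz]
        have e : dsc ψ (c :: C) F S x =
            dsc ψ C (insert ((S ∩ c.1).image fun v => (v, c.2 v)) F) S x := by
          unfold dsc
          refine sum_congr rfl fun y hy => ?_
          have : ¬ viol c y ↔ ∃ l ∈ (S ∩ c.1).image fun v => (v, c.2 v), lsat l y := by
            simp only [exists_mem_image, lsat, viol]
            constructor
            · intro h
              push Not at h
              obtain ⟨v, hv, hne⟩ := h
              refine ⟨v, mem_inter.2 ⟨?_, hv⟩, hne⟩
              by_contra hS'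
              exact hne ((mem_fib.1 hy v hS').trans (ho v hv hS'))
            · rintro ⟨v, hv, hne⟩ h
              exact hne (h v (mem_inter.1 hv).2)
          congr 1
          rw [satC_cons, this]
          simp only [Sat, forall_mem_insert, eq_iff_iff]
          tauto
        rw [e]
        refine ih S hS x hx _ (insert_subset (mem_small.2 ⟨fun l hl => ?_, ?_⟩) hF)
        · obtain ⟨v, hv, rfl⟩ := mem_image.1 hl
          exact mem_product.2 ⟨hS (mem_inter.1 hv).1, mem_univ _⟩
        · exact card_image_le.trans (by omega)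

open Classical in
theorem sum_overwrite (S : Finset V) (c : Cl V) (G : (V → Bool) → ℝ) :
    ∑ x, (if off S c x then G (c.1.piecewise c.2 x) else 0) =
      2 ^ #(S ∩ c.1) * ∑ y, if viol c y then G y else 0 := by
  have e : ∀ x, (if off S c x then G (c.1.piecewise c.2 x) else 0) =
      ∑ y ∈ fib (S ∩ c.1) x, if viol c y then G y else 0 := by
    intro x
    have key : ∀ y, (y ∈ fib (S ∩ c.1) x ∧ viol c y) ↔ (off S c x ∧ y = c.1.piecewise c.2 x) := by
      intro y
      rw [mem_fib]
      constructor
      · rintro ⟨h1, h2⟩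
        refine ⟨fun v hv hS => (h1 v fun h => hS (mem_inter.1 h).1).symm.trans (h2 v hv), ?_⟩
        funext v
        by_cases hc : v ∈ c.1
        · rw [piecewise_eq_of_mem _ _ _ hc, h2 v hc]
        · rw [piecewise_eq_of_notMem _ _ _ hc]
          exact h1 v fun h => hc (mem_inter.1 h).2
      · rintro ⟨h1, rfl⟩
        refine ⟨fun v hv => ?_, fun v hv => piecewise_eq_of_mem _ _ _ hv⟩
        by_cases hc : v ∈ c.1
        · rw [piecewise_eq_of_mem _ _ _ hc, h1 v hc fun h => hv (mem_inter.2 ⟨h, hc⟩)]
        · rw [piecewise_eq_of_notMem _ _ _ hc]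
    rw [← sum_filter]
    split_ifs with ho
    · have : (fib (S ∩ c.1) x).filter (viol c) = {c.1.piecewise c.2 x} := by
        ext y; rw [mem_filter, key, mem_singleton]; simp [ho]
      rw [this, sum_singleton]
    · have : (fib (S ∩ c.1) x).filter (viol c) = ∅ := by
        ext y; rw [mem_filter, key]; simp [ho]
      rw [this, sum_empty]
  simp only [e]
  exact sum_sum_fib _ _

omit [Fintype V] [DecidableEq V] in
theorem sum_wide_le {J k : ℕ} {β : ℝ} (hβ0 : 0 ≤ β) (hβ : (1 + 4 * β) ^ k ≤ 2 ^ J)
    (D : Finset V) (hD : #D ≤ k) :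
    ∑ N ∈ D.powerset.filter (fun N => J < #N), (2 * β) ^ #N ≤ 1 := by
  have h1 : ∑ N ∈ D.powerset.filter (fun N => J < #N), (2 * β) ^ #N * 2 ^ J ≤
      ∑ N ∈ D.powerset, (4 * β) ^ #N * 1 ^ (#D - #N) := by
    refine le_trans (sum_le_sum fun N hN => ?_) (sum_le_sum_of_subset_of_nonneg
      (filter_subset (fun N => J < #N) _) fun N _ _ => by positivity)
    have : (2 : ℝ) ^ J ≤ 2 ^ #N := pow_le_pow_right₀ (by norm_num) (mem_filter.1 hN).2.le
    rw [one_pow, mul_one, show 4 * β = 2 * β * 2 by ring, mul_pow (2 * β)]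
    gcongr
  rw [sum_pow_mul_eq_add_pow, ← sum_mul, add_comm] at h1
  have h2 : (1 + 4 * β) ^ #D ≤ (1 + 4 * β) ^ k := pow_le_pow_right₀ (by linarith) hD
  have h3 : (0 : ℝ) < 2 ^ J := by positivity
  exact le_of_mul_le_mul_right (by linarith) h3

theorem chain_weight {J k : ℕ} (𝒱 : Finset (Finset V)) (hV : ∀ S ∈ 𝒱, ∀ S' ⊆ S, S' ∈ 𝒱) {β : ℝ}
    (hβ0 : 0 ≤ β) (hβ : (1 + 4 * β) ^ k ≤ 2 ^ J) (C : List (Cl V)) (hC : ∀ c ∈ C, #c.1 ≤ k) :
    ∑ S ∈ 𝒱, β ^ #S * ∑ x, ch J C S x ≤ ∑ S ∈ 𝒱, β ^ #S * 2 ^ Fintype.card V := by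
  classical
  induction C with
  | nil => simp [ch]
  | cons c C ih =>
      refine le_trans ?_ (ih fun d hd => hC d (List.mem_cons_of_mem _ hd))
      have hc := hC c List.mem_cons_self
      set Γ : Finset V → ℝ := fun S => ∑ y, if viol c y then ch J C S y else 0 with hΓ
      have hΓ0 : ∀ S, 0 ≤ Γ S := fun S => sum_nonneg fun y _ => by
        split_ifs; exacts [ch_nonneg _ _ _ _, le_rfl]
      have e1 : ∀ S, ∑ x, ch J (c :: C) S x = ∑ x, ch J C S x -
          (if S ∩ c.1 = ∅ then Γ S else 0) +
          (if J < #(S ∩ c.1) then 2 ^ #(S ∩ c.1) * Γ (S \ c.1) else 0) := by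
        intro S
        simp only [ch, sum_add_distrib]
        congr 1
        · split_ifs with h
          · rw [← sum_sub_distrib]
            refine sum_congr rfl fun x _ => ?_
            by_cases hv : viol c x <;> simp [h, hv]
          · simp [h]
        · split_ifs with h
          · rw [← sum_overwrite]
            simp [h]
          · simp [h]
      simp only [e1, mul_add, mul_sub, sum_add_distrib, sum_sub_distrib]
      suffices ∑ S ∈ 𝒱, β ^ #S * (if J < #(S ∩ c.1) then 2 ^ #(S ∩ c.1) * Γ (S \ c.1) else 0) ≤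
          ∑ S ∈ 𝒱, β ^ #S * (if S ∩ c.1 = ∅ then Γ S else 0) by linarith
      simp only [mul_ite, mul_zero, ← sum_filter]
      have e2 : ∑ S ∈ 𝒱.filter (fun S => J < #(S ∩ c.1)),
          β ^ #S * (2 ^ #(S ∩ c.1) * Γ (S \ c.1)) = ∑ S ∈ 𝒱.filter (fun S => J < #(S ∩ c.1)),
          (fun p : Finset V × Finset V => β ^ #p.1 * Γ p.1 * (2 * β) ^ #p.2) (S \ c.1, S ∩ c.1) := by
        refine sum_congr rfl fun S _ => ?_
        simp only
        rw [← card_sdiff_add_card_inter S c.1, pow_add, mul_pow]
        ring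
      rw [e2]
      refine (sum_le_of_injOn (t := (𝒱.filter fun S => S ∩ c.1 = ∅) ×ˢ
        (c.1.powerset.filter fun N => J < #N)) (fun S => (S \ c.1, S ∩ c.1)) ?_ ?_
        (fun p : Finset V × Finset V => β ^ #p.1 * Γ p.1 * (2 * β) ^ #p.2) ?_).trans ?_
      · intro S _ T _ h
        simp only [Prod.mk.injEq] at h
        rw [← sdiff_union_inter S c.1, ← sdiff_union_inter T c.1, h.1, h.2]
      · intro S hS
        rw [mem_filter] at hS
        simp only [mem_product, mem_filter, mem_powerset]
        exact ⟨⟨hV S hS.1 _ sdiff_subset, sdiff_inter_self _ _⟩, inter_subset_right, hS.2⟩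
      · intro p _
        have := hΓ0 p.1
        positivity
      · rw [sum_product]
        refine sum_le_sum fun S _ => ?_
        simp only
        rw [← mul_sum]
        have := hΓ0 S
        exact mul_le_of_le_one_right (by positivity) (sum_wide_le hβ0 hβ _ hc)

end Chain

end Crest.Agent.R291
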