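import Crest.Agent.R291.Core
import Crest.Prelude.Def_Depth3

/-!
Row 291.  From small discrepancy of bounded-width CNFs to a size bound for circuits.
-/

set_option autoImplicit false

namespace Crest.Agent.R291

open Finset Crest.Depth3

section Circ

variable {V : Type*} [Fintype V] [DecidableEq V]

open Classical in
theorem card_viol (c : Cl V) {k : ℕ} (hk : k ≤ #c.1) :
    (#(univ.filter (viol c)) : ℝ) ≤ 2 ^ Fintype.card V / 2 ^ k := by
  have e : univ.filter (viol c) = fib (univ \ c.1) c.2 := by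
    ext y; simp [mem_fib, viol]
  rw [e, card_fib, le_div_iff₀ (by positivity), card_univ_sdiff]
  push_cast
  rw [← pow_add]
  have := card_le_univ c.1
  exact pow_le_pow_right₀ (by norm_num) (by omega)

open Classical in
theorem card_cnf_le (ψ : (V → Bool) → ℝ) (hψ : ∀ y, |ψ y| ≤ 1) {k : ℕ} {ε : ℝ}
    (hd : ∀ C : List (Cl V), (∀ c ∈ C, #c.1 ≤ k) →
      |∑ y, if SatC C y then ψ y else 0| ≤ ε * 2 ^ Fintype.card V)
    (C : List (Cl V)) (hC : ∀ y, SatC C y → 1 / 2 ≤ ψ y) :
    (#(univ.filter (SatC C)) : ℝ) ≤ 2 * (ε + C.length / 2 ^ k) * 2 ^ Fintype.card V := by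
  set C' := C.filter fun c => #c.1 ≤ k with hC'
  have h1 := (le_abs_self _).trans (hd C' fun c hc => by simpa using (List.mem_filter.1 hc).2)
  set W := (C.toFinset.filter fun c => k ≤ #c.1).biUnion fun c => univ.filter (viol c) with hW
  have h2 : (#W : ℝ) ≤ C.length * (2 ^ Fintype.card V / 2 ^ k) := by
    have a1 : (#W : ℝ) ≤ ∑ c ∈ C.toFinset.filter fun c => k ≤ #c.1,
        (#(univ.filter (viol c)) : ℝ) := by exact_mod_cast card_biUnion_le
    refine a1.trans ((sum_le_card_nsmul _ _ _ fun c hc => card_viol c (mem_filter.1 hc).2).trans ?_)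
    rw [nsmul_eq_mul]
    have : (#(C.toFinset.filter fun c => k ≤ #c.1) : ℝ) ≤ C.length := by
      exact_mod_cast (card_filter_le _ _).trans (List.toFinset_card_le _)
    gcongr
  have h3 : ∀ y, (if SatC C y then (1 / 2 : ℝ) else 0) ≤
      (if SatC C' y then ψ y else 0) + if y ∈ W then 1 else 0 := by
    intro y
    by_cases a : SatC C y
    · have b : SatC C' y := fun c hc => a c (List.mem_filter.1 hc).1
      rw [if_pos a, if_pos b]
      have := hC y a
      split_ifs <;> linarith
    · rw [if_neg a]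
      by_cases b : SatC C' y
      · have : y ∈ W := by
          simp only [SatC, not_forall, not_not] at a
          obtain ⟨c, hc, hv⟩ := a
          refine mem_biUnion.2 ⟨c, mem_filter.2 ⟨List.mem_toFinset.2 hc, ?_⟩, by simpa using hv⟩
          by_contra hlt
          exact b c (List.mem_filter.2 ⟨hc, by simpa using (by omega : #c.1 ≤ k)⟩) hv
        rw [if_pos b, if_pos this]
        have := (abs_le.1 (hψ y)).1
        linarith
      · rw [if_neg b]; split_ifs <;> norm_num
  have h4 := sum_le_sum fun y (_ : y ∈ univ) => h3 y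
  rw [sum_add_distrib, ← sum_filter, sum_const, nsmul_eq_mul, sum_ite_mem, univ_inter, sum_const,
    nsmul_eq_mul, mul_one] at h4
  have e : 2 * (ε + C.length / 2 ^ k) * 2 ^ Fintype.card V =
      2 * (ε * 2 ^ Fintype.card V + C.length * (2 ^ Fintype.card V / 2 ^ k)) := by ring
  rw [e]
  linarith

omit [DecidableEq V] in
theorem gate_clause {N : ℕ} (w : (V → Bool) → Fin N → Bool)
    (hw : ∀ i, (∃ v, ∀ x, w x i = x v) ∨ ∃ b, ∀ x, w x i = b)
    (lits : Finset (Fin N × Bool)) (one : Bool) :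
    ∃ C : List (Cl V), C.length ≤ 1 ∧
      ∀ x, (one = true ∨ ∃ l ∈ lits, w x l.1 = l.2) ↔ SatC C x := by
  classical
  by_cases h : ∀ x, one = true ∨ ∃ l ∈ lits, w x l.1 = l.2
  · exact ⟨[], by simp, fun x => by simp only [h x, SatC]; simp⟩
  push Not at h
  obtain ⟨x₀, h1, h2⟩ := h
  refine ⟨[(univ.filter fun v => ∃ l ∈ lits, ∀ x, w x l.1 = x v, x₀)], by simp, fun x => ?_⟩
  simp only [SatC, List.mem_singleton, forall_eq, viol, mem_filter, mem_univ, true_and]
  constructor
  · rintro (h | ⟨l, hl, hx⟩) hv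
    · exact h1 h
    · rcases hw l.1 with ⟨v, hi⟩ | ⟨b, hb⟩
      · exact h2 l hl (by rw [← hx, hi, hi, hv v ⟨l, hl, hi⟩])
      · exact h2 l hl (by rw [← hx, hb, hb])
  · intro hv
    push Not at hv
    obtain ⟨v, ⟨l, hl, hi⟩, hne⟩ := hv
    refine Or.inr ⟨l, hl, ?_⟩
    have a3 := h2 l hl
    rw [hi] at a3 ⊢
    revert hne a3
    cases x v <;> cases x₀ v <;> cases l.2 <;> simp

theorem circ_bound {N : ℕ} (w : (V → Bool) → Fin N → Bool)
    (hw : ∀ i, (∃ v, ∀ x, w x i = x v) ∨ ∃ b, ∀ x, w x i = b) (c : Circuit N)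
    (ψ : (V → Bool) → ℝ) (hψ : ∀ y, |ψ y| ≤ 1) (h1 : ∀ y, c.eval (w y) → 1 / 2 ≤ ψ y)
    (h2 : ∀ y, c.eval (w y) → ψ y ≤ 2 / 3) (h3 : ∀ y, ¬ c.eval (w y) → ψ y ≤ -(1 / 3))
    {k : ℕ} {ε : ℝ}
    (hd : ∀ C : List (Cl V), (∀ c ∈ C, #c.1 ≤ k) →
      |∑ y, @ite _ (SatC C y) (Classical.propDecidable _) (ψ y) 0| ≤ ε * 2 ^ Fintype.card V) :
    1 / 3 - ε ≤ 2 * c.size * (ε + c.size / 2 ^ k) := by
  classical
  choose G hG hG' using fun g => gate_clause w hw (c.lits g) (c.one g)
  set C : Fin c.mid → List (Cl V) := fun h => (c.reads h).toList.flatMap G with hC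
  have hlen : ∀ h, ((C h).length : ℝ) ≤ c.size := by
    intro h
    have a1 : (C h).length ≤ (c.reads h).toList.length := by
      rw [hC]
      simp only
      induction (c.reads h).toList with
      | nil => simp
      | cons g l ih => rw [List.flatMap_cons, List.length_append, List.length_cons]; have := hG g; omega
    have a2 := card_le_univ (c.reads h)
    rw [length_toList] at a1
    rw [Fintype.card_fin] at a2
    have : (C h).length ≤ c.size := by unfold Circuit.size; omega
    exact_mod_cast this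
  have hev : ∀ y, c.eval (w y) ↔ ∃ h, SatC (C h) y := by
    intro y
    refine exists_congr fun h => ?_
    simp only [hG', hC, SatC, List.mem_flatMap, mem_toList]
    exact ⟨fun a d ⟨g, hg, hd⟩ => a g hg d hd, fun a g hg d hd => a d ⟨g, hg, hd⟩⟩
  have hP : (0 : ℝ) < 2 ^ Fintype.card V := by positivity
  have hε : 0 ≤ ε := by
    have := (abs_nonneg _).trans (hd [] (by simp))
    exact nonneg_of_mul_nonneg_left this hP
  have e1 : (#(univ.filter fun y => c.eval (w y)) : ℝ) ≤
      c.size * (2 * (ε + c.size / 2 ^ k) * 2 ^ Fintype.card V) := by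
    have a1 : (univ.filter fun y => c.eval (w y)) ⊆ univ.biUnion fun h => univ.filter (SatC (C h)) := by
      intro y hy
      obtain ⟨h, hh⟩ := (hev y).1 (mem_filter.1 hy).2
      exact mem_biUnion.2 ⟨h, mem_univ _, mem_filter.2 ⟨mem_univ _, hh⟩⟩
    have a2 : (#(univ.filter fun y => c.eval (w y)) : ℝ) ≤
        ∑ h, (#(univ.filter (SatC (C h))) : ℝ) := by
      exact_mod_cast (card_le_card a1).trans card_biUnion_le
    have a3 : ∀ h ∈ (univ : Finset (Fin c.mid)), (#(univ.filter (SatC (C h))) : ℝ) ≤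
        2 * (ε + c.size / 2 ^ k) * 2 ^ Fintype.card V := by
      intro h _
      refine le_trans (by convert card_cnf_le ψ hψ hd (C h) fun y hy => h1 y ((hev y).2 ⟨h, hy⟩)) ?_
      have := hlen h
      gcongr
    refine a2.trans ((sum_le_card_nsmul _ _ _ a3).trans ?_)
    rw [nsmul_eq_mul, card_univ, Fintype.card_fin]
    have : (c.mid : ℝ) ≤ c.size := by
      have : c.mid ≤ c.size := by unfold Circuit.size; omega
      exact_mod_cast this
    gcongr
  have e2 := (abs_le.1 (hd [] (by simp))).1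
  have e3 : ∑ y, @ite _ (SatC ([] : List (Cl V)) y) (Classical.propDecidable _) (ψ y) 0 ≤
      ∑ y, ((if c.eval (w y) then (1 : ℝ) else 0) - 1 / 3) := by
    refine sum_le_sum fun y _ => ?_
    rw [if_pos (by simp [SatC])]
    split_ifs with h
    · have := h2 y h; linarith
    · have := h3 y h; linarith
  rw [sum_sub_distrib, sum_boole, sum_const, card_univ, Fintype.card_fun, Fintype.card_bool,
    nsmul_eq_mul] at e3
  push_cast at e3
  refine le_of_mul_le_mul_right ?_ hP
  nlinarith

end Circ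

end Crest.Agent.R291
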