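import Crest.Agent.R291.Sparse

/-!
Row 291.  Moment bound, tail bound and union bound for a family of functions with limited
independence, and the polynomial family over a finite field.
-/

set_option autoImplicit false

namespace Crest.Agent.R291

open Finset

section Moment

variable {H X : Type*} [Fintype H] [DecidableEq X]

/-- On `A`, products of `t` values with an isolated point have mean zero. -/
def Ind (ψ : H → X → ℝ) (t : ℕ) (A : Finset X) : Prop :=
  ∀ z : Fin t → X, (∀ s, z s ∈ A) → ∀ s₀, (∀ s, s ≠ s₀ → z s ≠ z s₀) → ∑ h, ∏ s, ψ h (z s) = 0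

omit [DecidableEq X] in
theorem Ind.mono {ψ : H → X → ℝ} {t : ℕ} {A A' : Finset X} (h : Ind ψ t A) (hA : A' ⊆ A) :
    Ind ψ t A' := fun z hz => h z fun s => hA (hz s)

theorem moment {ψ : H → X → ℝ} (hψ : ∀ h x, |ψ h x| ≤ 1) {τ : ℕ} {A : Finset X}
    (hI : Ind ψ (2 * τ) A) :
    ∑ h, (∑ y ∈ A, ψ h y) ^ (2 * τ) ≤ Fintype.card H * ((#A + 1) ^ τ * τ ^ (2 * τ)) := by
  classical
  simp only [sum_pow']
  rw [sum_comm]
  set T := (Fintype.piFinset fun _ : Fin (2 * τ) => A).filter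
    fun z => ¬ ∃ s₀, ∀ s, s ≠ s₀ → z s ≠ z s₀ with hT
  have e1 : ∑ z ∈ Fintype.piFinset fun _ : Fin (2 * τ) => A, ∑ h, ∏ s, ψ h (z s) =
      ∑ z ∈ T, ∑ h, ∏ s, ψ h (z s) := by
    rw [hT, sum_filter]
    refine sum_congr rfl fun z hz => ?_
    split_ifs with h
    · obtain ⟨s₀, hs⟩ := h
      exact hI z (Fintype.mem_piFinset.1 hz) s₀ hs
    · rfl
  have e2 : ∀ z ∈ T, ∑ h, ∏ s, ψ h (z s) ≤ Fintype.card H := by
    intro z _
    have : ∀ h, ∏ s, ψ h (z s) ≤ 1 := fun h => by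
      refine (le_abs_self _).trans ?_
      rw [abs_prod]
      exact prod_le_one (fun s _ => abs_nonneg _) fun s _ => hψ _ _
    simpa using sum_le_sum fun h (_ : h ∈ univ) => this h
  have e3 : T ⊆ (small A τ).biUnion fun I => Fintype.piFinset fun _ : Fin (2 * τ) => I := by
    intro z hz
    rw [hT, mem_filter] at hz
    refine mem_biUnion.2 ⟨univ.image z, mem_small.2 ⟨fun y hy => ?_, ?_⟩, ?_⟩
    · obtain ⟨s, _, rfl⟩ := mem_image.1 hy
      exact Fintype.mem_piFinset.1 hz.1 s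
    · have h2 := hz.2
      push Not at h2
      have := mul_card_image_le_card (f := z) univ 2 fun y hy => by
        obtain ⟨s₀, _, rfl⟩ := mem_image.1 hy
        obtain ⟨s, hs, hzs⟩ := h2 s₀
        exact one_lt_card.2 ⟨s, by simp [hzs], s₀, by simp, hs⟩
      simp only [card_univ, Fintype.card_fin] at this
      omega
    · exact Fintype.mem_piFinset.2 fun s => mem_image_of_mem _ (mem_univ _)
  have e4 : #T ≤ (#A + 1) ^ τ * τ ^ (2 * τ) := by
    refine (card_le_card e3).trans (card_biUnion_le.trans ?_)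
    refine le_trans (sum_le_card_nsmul _ _ (τ ^ (2 * τ)) fun I hI => ?_) ?_
    · rw [Fintype.card_piFinset, prod_const, card_univ, Fintype.card_fin]
      exact Nat.pow_le_pow_left (mem_small.1 hI).2 _
    · rw [smul_eq_mul]; exact Nat.mul_le_mul_right _ (card_small _ _)
  rw [e1]
  refine (sum_le_card_nsmul _ _ _ e2).trans ?_
  rw [nsmul_eq_mul, mul_comm]
  have : (#T : ℝ) ≤ (#A + 1) ^ τ * τ ^ (2 * τ) := by exact_mod_cast e4
  gcongr

open Classical in
theorem tail {ψ : H → X → ℝ} (hψ : ∀ h x, |ψ h x| ≤ 1) {τ : ℕ} {A : Finset X}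
    (hI : Ind ψ (2 * τ) A) {B : ℝ} (hB : 0 ≤ B) :
    #(univ.filter fun h => B < |∑ y ∈ A, ψ h y|) * B ^ (2 * τ) ≤
      Fintype.card H * ((#A + 1) ^ τ * τ ^ (2 * τ)) := by
  refine le_trans ?_ (moment hψ hI)
  rw [← nsmul_eq_mul, ← sum_const]
  refine le_trans (sum_le_sum fun h hh => ?_) (sum_le_sum_of_subset_of_nonneg
    (filter_subset (fun h => B < |∑ y ∈ A, ψ h y|) univ) fun h _ _ => by
      rw [pow_mul]; positivity)
  rw [← (even_two_mul τ).pow_abs (∑ y ∈ A, ψ h y)]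
  exact pow_le_pow_left₀ hB (mem_filter.1 hh).2.le _

/-- Some sparse `J`-CNF has a large discrepancy. -/
def Bad {L : Type*} [DecidableEq L] (X₀ : Finset X) (ψ : X → ℝ) (sat : L → X → Prop)
    (L₀ : Finset L) (J m : ℕ) (B : ℝ) : Prop :=
  ∃ F ∈ small (small L₀ J) m, ∃ R ⊆ L₀, B < |disc X₀ ψ sat F R|

open Classical in
theorem union_bound {L : Type*} [DecidableEq L] {ψ : H → X → ℝ} (hψ : ∀ h x, |ψ h x| ≤ 1) {τ : ℕ}
    {X₀ : Finset X} (hI : Ind ψ (2 * τ) X₀) (sat : L → X → Prop) (L₀ : Finset L) (J m : ℕ)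
    {B : ℝ} (hB : 0 ≤ B) :
    #(univ.filter fun h => Bad X₀ (ψ h) sat L₀ J m B) * B ^ (2 * τ) ≤
      ((#L₀ + 1) ^ J + 1) ^ m * 2 ^ #L₀ * (Fintype.card H * ((#X₀ + 1) ^ τ * τ ^ (2 * τ))) := by
  have e1 : (univ.filter fun h => Bad X₀ (ψ h) sat L₀ J m B) ⊆
      (small (small L₀ J) m ×ˢ L₀.powerset).biUnion fun p =>
        univ.filter fun h => B < |disc X₀ (ψ h) sat p.1 p.2| := by
    intro h hh
    obtain ⟨F, hF, R, hR, hb⟩ := (mem_filter.1 hh).2
    exact mem_biUnion.2 ⟨(F, R), mem_product.2 ⟨hF, mem_powerset.2 hR⟩,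
      mem_filter.2 ⟨mem_univ _, hb⟩⟩
  have e2 : (#(univ.filter fun h => Bad X₀ (ψ h) sat L₀ J m B) : ℝ) ≤
      ∑ p ∈ small (small L₀ J) m ×ˢ L₀.powerset,
        (#(univ.filter fun h => B < |disc X₀ (ψ h) sat p.1 p.2|) : ℝ) := by
    exact_mod_cast (card_le_card e1).trans card_biUnion_le
  have e3 : ∀ p ∈ small (small L₀ J) m ×ˢ L₀.powerset,
      (#(univ.filter fun h => B < |disc X₀ (ψ h) sat p.1 p.2|) : ℝ) * B ^ (2 * τ) ≤
        Fintype.card H * ((#X₀ + 1) ^ τ * τ ^ (2 * τ)) := by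
    intro p _
    have := tail hψ (hI.mono (filter_subset (fun x => Sat sat p.1 x ∧ ∀ l ∈ p.2, ¬ sat l x) X₀)) hB
    simp only [sum_filter] at this
    refine le_trans (le_of_eq ?_) (this.trans ?_)
    · rfl
    · have : (#(X₀.filter fun x => Sat sat p.1 x ∧ ∀ l ∈ p.2, ¬ sat l x) : ℝ) ≤ #X₀ := by
        exact_mod_cast card_filter_le _ _
      gcongr
  have e4 : (#(small (small L₀ J) m ×ˢ L₀.powerset) : ℝ) ≤ ((#L₀ + 1) ^ J + 1) ^ m * 2 ^ #L₀ := by
    rw [card_product, card_powerset]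
    have h1 := (card_small (small L₀ J) m).trans
      (Nat.pow_le_pow_left (Nat.add_le_add_right (card_small L₀ J) 1) m)
    exact_mod_cast Nat.mul_le_mul_right _ h1
  calc _ ≤ (∑ p ∈ small (small L₀ J) m ×ˢ L₀.powerset,
        (#(univ.filter fun h => B < |disc X₀ (ψ h) sat p.1 p.2|) : ℝ)) * B ^ (2 * τ) := by gcongr
    _ ≤ _ := by
      rw [sum_mul]
      refine (sum_le_card_nsmul _ _ _ e3).trans ?_
      rw [nsmul_eq_mul]
      gcongr

end Moment

section Poly

variable {K : Type*} [Field K] [Fintype K]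

/-- The polynomial with coefficient vector `h`. -/
def pev {t : ℕ} (h : Fin t → K) (y : K) : K := ∑ j, h j * y ^ (j : ℕ)

theorem pev_vanish {t : ℕ} (φ : K → ℝ) (hφ : ∑ c, φ c = 0) (z : Fin t → K) (s₀ : Fin t)
    (hz : ∀ s, s ≠ s₀ → z s ≠ z s₀) : ∑ h : Fin t → K, ∏ s, φ (pev h (z s)) = 0 := by
  classical
  set P : Polynomial K := ∏ s ∈ univ.erase s₀, (Polynomial.X - Polynomial.C (z s)) with hP
  have hdeg : P.natDegree < t := by
    rw [hP, Polynomial.natDegree_finsetProd_X_sub_C_eq_card, card_erase_of_mem (mem_univ _),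
      card_univ, Fintype.card_fin]
    have := s₀.pos
    omega
  set e : Fin t → K := fun j => P.coeff j with he
  have hev : ∀ y, pev e y = P.eval y := by
    intro y
    rw [Polynomial.eval_eq_sum_range' hdeg, sum_range]
    rfl
  have hadd : ∀ (h : Fin t → K) (c y : K), pev (h + c • e) y = pev h y + c * P.eval y := by
    intro h c y
    rw [← hev]
    simp only [pev, Pi.add_apply, Pi.smul_apply, smul_eq_mul, add_mul, sum_add_distrib, mul_sum,
      mul_assoc]
  have h0 : ∀ s, s ≠ s₀ → P.eval (z s) = 0 := by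
    intro s hs
    rw [hP, Polynomial.eval_prod]
    exact prod_eq_zero (mem_erase.2 ⟨hs, mem_univ _⟩) (by simp)
  have h1 : P.eval (z s₀) ≠ 0 := by
    rw [hP, Polynomial.eval_prod]
    refine prod_ne_zero_iff.2 fun s hs => ?_
    simp only [Polynomial.eval_sub, Polynomial.eval_X, Polynomial.eval_C]
    exact sub_ne_zero.2 (hz s (mem_erase.1 hs).1).symm
  have e1 : ∀ c : K, ∑ h : Fin t → K, ∏ s, φ (pev h (z s)) =
      ∑ h : Fin t → K, ∏ s, φ (pev (h + c • e) (z s)) := fun c =>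
    (Equiv.sum_comp (Equiv.addRight (c • e)) fun h => ∏ s, φ (pev h (z s))).symm
  have e2 : ∑ c : K, ∑ h : Fin t → K, ∏ s, φ (pev (h + c • e) (z s)) = 0 := by
    rw [sum_comm]
    refine sum_eq_zero fun h _ => ?_
    have : ∀ c : K, ∏ s, φ (pev (h + c • e) (z s)) =
        φ (pev h (z s₀) + c * P.eval (z s₀)) * ∏ s ∈ univ.erase s₀, φ (pev h (z s)) := by
      intro c
      rw [← mul_prod_erase _ _ (mem_univ s₀), hadd]
      congr 1
      exact prod_congr rfl fun s hs => by rw [hadd, h0 s (mem_erase.1 hs).1, mul_zero, add_zero]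
    simp only [this]
    rw [← sum_mul]
    have e3 : ∑ c : K, φ (pev h (z s₀) + c * P.eval (z s₀)) = ∑ c, φ c :=
      Equiv.sum_comp ((Equiv.mulRight₀ _ h1).trans (Equiv.addLeft (pev h (z s₀)))) φ
    rw [e3, hφ, zero_mul]
  simp only [← e1, sum_const, card_univ, nsmul_eq_mul] at e2
  exact (mul_eq_zero.1 e2).resolve_left (by exact_mod_cast Fintype.card_ne_zero)

end Poly

end Crest.Agent.R291
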