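import Crest.Agent.R291.Chain
import Crest.Agent.R291.Moment

/-!
Row 291.  The core estimate: for some seed, every CNF of bounded width has small discrepancy.
-/

set_option autoImplicit false

namespace Crest.Agent.R291

open Finset

section Core

variable {ι κ : Type*} [Fintype ι] [DecidableEq ι] [Fintype κ] [DecidableEq κ]

/-- The set of free positions given by a partial choice function. -/
def st (o : ι → Option κ) : Finset (ι × κ) := univ.filter fun v => o v.1 = some v.2

/-- The set of free positions given by a choice function. -/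
def star (o : ι → κ) : Finset (ι × κ) := st fun b => some (o b)

omit [DecidableEq ι] in
theorem mem_star {o : ι → κ} {v : ι × κ} : v ∈ star o ↔ o v.1 = v.2 := by simp [star, st]

omit [DecidableEq ι] in
theorem card_st (o : ι → Option κ) : #(st o) = ∑ b, if o b = none then 0 else 1 := by
  rw [st, card_filter, Fintype.sum_prod_type]
  refine sum_congr rfl fun b _ => ?_
  rcases h : o b with _ | j
  · simp [h]
  · simp [h]

omit [DecidableEq ι] in
theorem card_star (o : ι → κ) : #(star o) = Fintype.card ι := by simp [star, card_st]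

omit [DecidableEq ι] in
theorem star_injective : Function.Injective (star : (ι → κ) → Finset (ι × κ)) := by
  intro o o' h
  funext b
  have : (b, o b) ∈ star o' := h ▸ mem_star.2 rfl
  exact (mem_star.1 this).symm

theorem st_hered (S : Finset (ι × κ)) (hS : S ∈ univ.image (st : (ι → Option κ) → _))
    (S' : Finset (ι × κ)) (h : S' ⊆ S) : S' ∈ univ.image (st : (ι → Option κ) → _) := by
  obtain ⟨o, _, rfl⟩ := mem_image.1 hS
  refine mem_image.2 ⟨fun b => if ∃ j, (b, j) ∈ S' then o b else none, mem_univ _, ?_⟩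
  ext ⟨b, j⟩
  simp only [st, mem_filter, mem_univ, true_and]
  constructor
  · intro h1
    split_ifs at h1 with h2
    obtain ⟨j', hj'⟩ := h2
    have := h hj'
    simp only [st, mem_filter, mem_univ, true_and] at this
    rw [h1] at this
    rwa [Option.some.inj this]
  · intro h1
    rw [if_pos ⟨j, h1⟩]
    simpa [st] using h h1

theorem sum_st_le {β : ℝ} (hβ : 0 ≤ β) :
    ∑ S ∈ univ.image (st : (ι → Option κ) → _), β ^ #S ≤
      (1 + Fintype.card κ * β) ^ Fintype.card ι := by
  refine (sum_image_le_of_nonneg fun _ _ => by positivity).trans (le_of_eq ?_)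
  have e1 : ∀ o : ι → Option κ, β ^ #(st o) = ∏ b, if o b = none then 1 else β := by
    intro o
    rw [card_st, ← prod_pow_eq_pow_sum]
    exact prod_congr rfl fun b _ => by split_ifs <;> simp
  simp only [e1]
  have := prod_univ_sum (fun _ : ι => (univ : Finset (Option κ)))
    fun _ a => if a = none then (1 : ℝ) else β
  rw [Fintype.piFinset_univ] at this
  rw [← this, prod_const, card_univ, Fintype.sum_option]
  simp

theorem sum_ch_star {J k : ℕ} {β : ℝ} (hβ0 : 0 < β) (hβ : (1 + 4 * β) ^ k ≤ 2 ^ J)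
    (C : List (Cl (ι × κ))) (hC : ∀ c ∈ C, #c.1 ≤ k) :
    β ^ Fintype.card ι * ∑ o : ι → κ, ∑ x, ch J C (star o) x ≤
      (1 + Fintype.card κ * β) ^ Fintype.card ι * 2 ^ Fintype.card (ι × κ) := by
  have h1 := chain_weight _ st_hered hβ0.le hβ C hC
  have h2 := sum_le_of_injOn (s := univ) (t := univ.image (st : (ι → Option κ) → _)) star
    star_injective.injOn (fun o _ => mem_image_of_mem _ (mem_univ _))
    (fun S => β ^ #S * ∑ x, ch J C S x)
    (fun S _ => mul_nonneg (by positivity) (sum_nonneg fun x _ => ch_nonneg _ _ _ _))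
  simp only [card_star, ← mul_sum] at h2
  rw [← sum_mul] at h1
  refine h2.trans (h1.trans ?_)
  have := sum_st_le (ι := ι) (κ := κ) hβ0.le
  gcongr

open Classical in
theorem core {H : Type*} [Fintype H] [Nonempty H] [Nonempty κ] (ψ : H → (ι × κ → Bool) → ℝ)
    (hψ : ∀ h x, |ψ h x| ≤ 1) {τ : ℕ} (hI : ∀ o x₀, Ind ψ (2 * τ) (fib (star o) x₀))
    {θ : ℕ → ℕ} {Λ J q k u g : ℕ} (hu : Fintype.card ι = u) (hg : Fintype.card κ = g)
    (h0 : 2 ≤ θ 0) (hΛ : 1 ≤ Λ) (hJ : 4 * J ≤ Λ) (hθ : ∀ j, Λ * θ j ^ 2 ≤ θ (j + 1))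
    (hq : 2 * (2 * u * J) ≤ q * Λ) {B η β : ℝ} (hB : 0 < B)
    (hη : ((2 * u + 1) ^ J + 1) ^ (1 + 2 * u * (J * θ J)) * 2 ^ (2 * u) *
      ((2 ^ u + 1) ^ τ * τ ^ (2 * τ)) ≤ η * B ^ (2 * τ))
    (hβ0 : 0 < β) (hβ : (1 + 4 * β) ^ k ≤ 2 ^ J) :
    ∃ h, ∀ C : List (Cl (ι × κ)), (∀ c ∈ C, #c.1 ≤ k) →
      |∑ y, if SatC C y then ψ h y else 0| ≤
        (((2 * u + 1) ^ J + 1) ^ q * B * (1 + 1 / (g * β)) ^ u / 2 ^ u + η) * 2 ^ (u * g) := by
  have hL : ∀ o : ι → κ, #(star o ×ˢ (univ : Finset Bool)) = 2 * u := by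
    intro o; rw [card_product, card_star, hu]; simp [mul_comm]
  set bad : H → (ι → κ) × (ι × κ → Bool) → Prop := fun h p =>
    Bad (fib (star p.1) p.2) (ψ h) lsat (star p.1 ×ˢ univ) J (1 + 2 * u * (J * θ J)) B with hbad
  have e1 : ∀ p, (#(univ.filter fun h => bad h p) : ℝ) ≤ η * Fintype.card H := by
    intro p
    have := union_bound hψ (hI p.1 p.2) lsat (star p.1 ×ˢ univ) J (1 + 2 * u * (J * θ J)) hB.le
    rw [hL, card_fib, card_star, hu] at this
    push_cast at this
    have hB' : 0 < B ^ (2 * τ) := by positivity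
    refine le_of_mul_le_mul_right (this.trans ?_) hB'
    have h2 : (0 : ℝ) ≤ Fintype.card H := by positivity
    nlinarith [mul_le_mul_of_nonneg_left hη h2]
  have hV : Fintype.card (ι × κ) = u * g := by rw [Fintype.card_prod, hu, hg]
  obtain ⟨h, -, hh⟩ : ∃ h ∈ (univ : Finset H), (#(univ.filter fun p => bad h p) : ℝ) ≤
      η * (g ^ u * 2 ^ (u * g)) := by
    refine exists_le_of_sum_le univ_nonempty ?_
    simp only [card_filter, Nat.cast_sum] at e1 ⊢
    rw [sum_comm]
    refine (sum_le_card_nsmul _ _ _ fun p _ => e1 p).trans (le_of_eq ?_)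
    simp only [card_univ, sum_const, nsmul_eq_mul, Fintype.card_prod, Fintype.card_fun, hu, hg,
      Fintype.card_bool]
    push_cast; ring
  refine ⟨h, fun C hC => ?_⟩
  set T := ∑ y, if SatC C y then ψ h y else 0 with hT
  set K : ℝ := ((2 * u + 1) ^ J + 1) ^ q with hK
  have hK0 : 0 ≤ K := by positivity
  have e2 : ∀ o, ∑ x, dsc (ψ h) C ∅ (star o) x = 2 ^ u * T := by
    intro o
    unfold dsc
    rw [sum_sum_fib, card_star, hu, hT]
    simp [Sat]
  have e3 : ∀ p : (ι → κ) × (ι × κ → Bool), |dsc (ψ h) C ∅ (star p.1) p.2| ≤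
      ch J C (star p.1) p.2 * (K * B) + if bad h p then 2 ^ u else 0 := by
    intro p
    have hc := ch_nonneg J C (star p.1) p.2
    split_ifs with hb
    · have : |dsc (ψ h) C ∅ (star p.1) p.2| ≤ 2 ^ u := by
        unfold dsc
        refine (abs_sum_le_sum_abs _ _).trans ((sum_le_card_nsmul _ _ 1 fun y _ => ?_).trans ?_)
        · split_ifs
          · exact hψ _ _
          · simp
        · rw [card_fib, card_star, hu]; simp
      have : 0 ≤ ch J C (star p.1) p.2 * (K * B) := by positivity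
      linarith
    · rw [add_zero]
      refine chain_disc J (ψ h) (star p.1) p.2 (fun F hF R hR => ?_) C _ Subset.rfl _
        (mem_fib.2 fun _ _ => rfl) ∅ (empty_subset _)
      simp only [hbad, Bad, not_exists, not_and, not_lt] at hb
      refine (sparse _ _ _ h0 hΛ hJ hθ hB.le (by rw [hL]; exact hb) (q := q) (by rw [hL]; exact hq)
        F hF R hR).trans ?_
      have : (#(small (star p.1 ×ˢ (univ : Finset Bool)) J) : ℝ) ≤ (2 * u + 1) ^ J := by
        have := card_small (star p.1 ×ˢ (univ : Finset Bool)) J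
        rw [hL] at this
        exact_mod_cast this
      rw [hK]
      gcongr
  have e4 := sum_ch_star hβ0 hβ C hC
  rw [hV, hu, hg] at e4
  have hg0 : (0 : ℝ) < g := by rw [← hg]; exact_mod_cast Fintype.card_pos
  have e5 : (g : ℝ) ^ u * (2 ^ u * |T|) ≤
      (∑ o : ι → κ, ∑ x, ch J C (star o) x) * (K * B) + η * (g ^ u * 2 ^ (u * g)) * 2 ^ u := by
    have a1 : (g : ℝ) ^ u * (2 ^ u * T) =
        ∑ p : (ι → κ) × (ι × κ → Bool), dsc (ψ h) C ∅ (star p.1) p.2 := by
      rw [Fintype.sum_prod_type]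
      simp only [e2, sum_const, card_univ, Fintype.card_fun, hu, hg, nsmul_eq_mul]
      push_cast; ring
    have a2 : (g : ℝ) ^ u * (2 ^ u * |T|) = |(g : ℝ) ^ u * (2 ^ u * T)| := by
      rw [abs_mul, abs_mul, abs_of_pos (a := (g : ℝ) ^ u) (by positivity),
        abs_of_pos (a := (2 : ℝ) ^ u) (by positivity)]
    rw [a2, a1]
    refine (abs_sum_le_sum_abs _ _).trans ((sum_le_sum fun p _ => e3 p).trans ?_)
    rw [sum_add_distrib, ← sum_mul, Fintype.sum_prod_type, ← sum_filter, sum_const, nsmul_eq_mul]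
    gcongr
  have e6 : ∑ o : ι → κ, ∑ x, ch J C (star o) x ≤ g ^ u * (1 + 1 / (g * β)) ^ u * 2 ^ (u * g) := by
    refine le_of_mul_le_mul_left (e4.trans (le_of_eq ?_)) (pow_pos hβ0 u)
    rw [← mul_assoc, ← mul_pow, ← mul_pow]
    congr 2
    field_simp
    ring
  have e7 : (g : ℝ) ^ u * (2 ^ u * |T|) ≤ (g : ℝ) ^ u * (2 ^ u *
      ((K * B * (1 + 1 / (g * β)) ^ u / 2 ^ u + η) * 2 ^ (u * g))) := by
    refine e5.trans ?_
    calc _ ≤ (g ^ u * (1 + 1 / (g * β)) ^ u * 2 ^ (u * g)) * (K * B) +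
        η * (g ^ u * 2 ^ (u * g)) * 2 ^ u := by gcongr
      _ = _ := by field_simp
  exact le_of_mul_le_mul_left (le_of_mul_le_mul_left e7 (by positivity)) (by positivity)

end Core

end Crest.Agent.R291
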