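import Crest.Agent.R291.Lang
import Crest.Agent.R291.Circ

/-!
Row 291.  The language restricted to a fixed seed.
-/

set_option autoImplicit false

namespace Crest.Agent.R291

open Finset

theorem sum_testBit (a W : ℕ) :
    ∑ i ∈ range W, (if a.testBit i = true then 1 else 0) * 2 ^ i = a % 2 ^ W := by
  induction W with
  | zero => simp [Nat.mod_one]
  | succ W ih =>
      rw [sum_range_succ, ih, Nat.mod_pow_succ, Nat.testBit_eq_decide_div_mod_eq]
      have := Nat.mod_two_eq_zero_or_one (a / 2 ^ W)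
      rcases this with h | h <;> simp [h]

/-- The number with the given binary digits. -/
def bsum {u : ℕ} (z : Fin u → Bool) : ℕ := ∑ b, (if z b = true then 1 else 0) * 2 ^ (b : ℕ)

theorem bsum_lt {u : ℕ} (z : Fin u → Bool) : bsum z < 2 ^ u := by
  induction u with
  | zero => simp [bsum]
  | succ u ih =>
      have := ih fun b => z b.castSucc
      unfold bsum at this ⊢
      rw [Fin.sum_univ_castSucc, pow_succ]
      simp only [Fin.val_castSucc, Fin.val_last] at this ⊢
      split_ifs <;> omega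

theorem bsum_inj {u : ℕ} (z z' : Fin u → Bool) (h : bsum z = bsum z') : z = z' := by
  induction u with
  | zero => exact Subsingleton.elim _ _
  | succ u ih =>
      have h1 := bsum_lt fun b => z b.castSucc
      have h2 := bsum_lt fun b => z' b.castSucc
      have h3 := ih (fun b => z b.castSucc) fun b => z' b.castSucc
      unfold bsum at h h1 h2 h3
      rw [Fin.sum_univ_castSucc, Fin.sum_univ_castSucc] at h
      simp only [Fin.val_castSucc, Fin.val_last] at h
      have h4 : z (Fin.last u) = z' (Fin.last u) := by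
        cases hz : z (Fin.last u) <;> cases hz' : z' (Fin.last u) <;> simp [hz, hz'] at h ⊢ <;>
          simp at h1 h2 <;> omega
      rw [h4] at h
      have h5 := h3 (Nat.add_right_cancel h)
      funext b
      refine Fin.lastCases h4 (fun b => congrFun h5 b) b

section
variable {u g : ℕ}

/-- The hash of an assignment of the free positions. -/
def hs (x : Fin u × Fin g → Bool) : ℕ := ∑ v, (if x v = true then 1 else 0) * 2 ^ (v.1 : ℕ)

theorem hs_inj {p : ℕ} (hp : 2 ^ u ≤ p) (o : Fin u → Fin g) (x₀ : Fin u × Fin g → Bool)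
    {y y' : Fin u × Fin g → Bool} (hy : y ∈ fib (star o) x₀) (hy' : y' ∈ fib (star o) x₀)
    (h : (hs y : ZMod p) = hs y') : y = y' := by
  have e : ∀ z ∈ fib (star o) x₀, hs z = bsum (fun b => z (b, o b)) +
      ∑ v ∈ univ \ star o, (if x₀ v = true then 1 else 0) * 2 ^ (v.1 : ℕ) := by
    intro z hz
    rw [hs, ← sum_sdiff (subset_univ (star o)), add_comm]
    congr 1
    · have : star o = univ.image fun b => (b, o b) := by
        ext ⟨b, j⟩
        simp [mem_star]
      rw [this, sum_image fun b _ b' _ h => (Prod.mk.inj h).1]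
      rfl
    · exact sum_congr rfl fun v hv => by rw [mem_fib.1 hz v (mem_sdiff.1 hv).2]
  rw [e y hy, e y' hy', Nat.cast_add, Nat.cast_add, add_left_inj, ZMod.natCast_eq_natCast_iff] at h
  have h1 := bsum_inj _ _ (h.eq_of_lt_of_lt ((bsum_lt _).trans_le hp) ((bsum_lt _).trans_le hp))
  funext v
  by_cases hv : v ∈ star o
  · have := congrFun h1 v.1
    simp only [mem_star.1 hv] at this
    exact this
  · rw [mem_fib.1 hy v hv, mem_fib.1 hy' v hv]

/-- The input with free part `x` and seed fields `val`. -/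
def wd (n W : ℕ) (val : ℕ → ℕ) (x : Fin u × Fin g → Bool) (i : ℕ) : Bool :=
  if h : i < u * g then x (finProdFinEquiv.symm ⟨i, h⟩)
  else if i < n then false else (val ((i - n) / W)).testBit ((i - n) % W)

theorem wd_cases (n W : ℕ) (val : ℕ → ℕ) (i : ℕ) :
    (∃ v, ∀ x : Fin u × Fin g → Bool, wd n W val x i = x v) ∨
      ∃ b, ∀ x : Fin u × Fin g → Bool, wd n W val x i = b := by
  by_cases h : i < u * g
  · exact Or.inl ⟨_, fun x => dif_pos h⟩
  · exact Or.inr ⟨_, fun x => dif_neg h⟩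

theorem bit_ofFn {N : ℕ} (f : ℕ → Bool) {i : ℕ} (hi : i < N) :
    bit (List.ofFn fun j : Fin N => f j) i = if f i = true then 1 else 0 := by
  unfold bit
  rw [List.drop_eq_getElem_cons (by simpa using hi)]
  simp

theorem num_wd {N n W : ℕ} (val : ℕ → ℕ) (x : Fin u × Fin g → Bool) (hn : u * g ≤ n) {f : ℕ}
    (hf : n + (f + 1) * W ≤ N) (hv : val f < 2 ^ W) :
    num (List.ofFn fun j : Fin N => wd n W val x j) (n + f * W) W = val f := by
  rw [← Nat.mod_eq_of_lt hv, ← sum_testBit]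
  refine sum_congr rfl fun i hi => ?_
  rw [mem_range] at hi
  rw [add_mul] at hf
  rw [bit_ofFn _ (by omega), wd, dif_neg (by omega), if_neg (c := _ < n) (by omega),
    show n + f * W + i - n = i + W * f by rw [mul_comm]; omega, Nat.add_mul_div_left _ _ (by omega),
    Nat.add_mul_mod_self_left, Nat.div_eq_of_lt hi, Nat.mod_eq_of_lt hi, zero_add]

theorem hash_wd {N n W : ℕ} (val : ℕ → ℕ) (x : Fin u × Fin g → Bool) (hn : u * g ≤ n)
    (hN : n ≤ N) : hash (List.ofFn fun j : Fin N => wd n W val x j) n g = hs x := by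
  unfold hash hs
  rw [← sum_subset (range_subset_range.2 hn) fun i hi hi' => ?_]
  · rw [sum_range, ← Equiv.sum_comp finProdFinEquiv.symm]
    refine sum_congr rfl fun i _ => ?_
    rw [bit_ofFn _ (by omega), wd, dif_pos i.2]
    rfl
  · rw [mem_range] at hi hi'
    rw [bit_ofFn _ (by omega), wd, dif_neg hi', if_pos hi]
    simp

/-- The seed fields. -/
def fields {p t : ℕ} (g : ℕ) (h : Fin t → ZMod p) (f : ℕ) : ℕ :=
  if f = 0 then g else if f = 1 then p else if hf : f - 2 < t then (h ⟨f - 2, hf⟩).val else 0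

theorem pval_wd {N n W t p : ℕ} [Fact p.Prime] (h : Fin t → ZMod p) (x : Fin u × Fin g → Bool)
    (hn : u * g ≤ n) (hN : n + (t + 2) * W ≤ N) (hg : g < 2 ^ W) (hp : p < 2 ^ W) :
    pval (List.ofFn fun j : Fin N => wd n W (fields g h) x j) n W t = (pev h (hs x)).val := by
  have a0 := num_wd (N := N) (W := W) (fields g h) x hn (f := 0) (by nlinarith) hg
  have a1 := num_wd (N := N) (W := W) (fields g h) x hn (f := 1) (by nlinarith) hp
  have a2 : ∀ j : Fin t, num (List.ofFn fun j : Fin N => wd n W (fields g h) x j)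
      (n + (j + 2) * W) W = (h j).val := by
    intro j
    have e : fields g h (j + 2) = (h j).val := by simp [fields]
    rw [num_wd (fields g h) x hn (by have := j.2; nlinarith)
      (by rw [e]; exact (ZMod.val_lt _).trans hp), e]
  simp only [zero_mul, add_zero, one_mul] at a0 a1
  unfold pval
  rw [a0, a1, show fields g h 0 = g from rfl, show fields g h 1 = p from rfl,
    hash_wd _ _ hn (by omega), sum_range, ← ZMod.val_natCast]
  simp only [a2]
  congr 1
  simp [pev]

end

/-- The centred parity function on `ZMod p`. -/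
noncomputable def par (p : ℕ) (c : ZMod p) : ℝ :=
  (if c.val % 2 = 1 then 1 else 0) - ((p / 2 : ℕ) : ℝ) / p

theorem sum_par (p : ℕ) [NeZero p] : ∑ c, par p c = 0 := by
  have e : ∀ n : ℕ, ∑ i ∈ range n, (if i % 2 = 1 then (1 : ℝ) else 0) = ((n / 2 : ℕ) : ℝ) := by
    intro n
    induction n with
    | zero => simp
    | succ n ih =>
        rw [sum_range_succ, ih]
        split_ifs with h
        · rw [show (n + 1) / 2 = n / 2 + 1 by omega]; push_cast; ring
        · rw [show (n + 1) / 2 = n / 2 by omega, add_zero]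
  obtain ⟨n, rfl⟩ : ∃ n, p = n + 1 := ⟨p - 1, by have := NeZero.ne p; omega⟩
  unfold par
  rw [sum_sub_distrib, sum_const, card_univ, ZMod.card, nsmul_eq_mul, ← e, sum_range,
    mul_div_cancel₀ _ (by positivity), sub_eq_zero]
  rfl

theorem mu_bounds {p : ℕ} (hp : 2 ≤ p) :
    (1 / 3 : ℝ) ≤ ((p / 2 : ℕ) : ℝ) / p ∧ ((p / 2 : ℕ) : ℝ) / p ≤ 1 / 2 := by
  have h0 : (0 : ℝ) < p := by positivity
  have h1 : (p : ℝ) ≤ 3 * (p / 2 : ℕ) := by exact_mod_cast (by omega : p ≤ 3 * (p / 2))
  have h2 : 2 * ((p / 2 : ℕ) : ℝ) ≤ p := by exact_mod_cast (by omega : 2 * (p / 2) ≤ p)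
  constructor
  · rw [le_div_iff₀ h0]; linarith
  · rw [div_le_iff₀ h0]; linarith

open Crest.Depth3 in
/-- The lower bound under explicit numeric hypotheses. -/
theorem bound {N n W τ u g k J Λ q : ℕ} {θ : ℕ → ℕ} (hg0 : 0 < g) (hn : u * g ≤ n)
    (hN : n + (2 * τ + 2) * W ≤ N) (hg : g < 2 ^ W) (hu : u + 2 ≤ W)
    (h0 : 2 ≤ θ 0) (hΛ : 1 ≤ Λ) (hJ : 4 * J ≤ Λ) (hθ : ∀ j, Λ * θ j ^ 2 ≤ θ (j + 1))
    (hq : 2 * (2 * u * J) ≤ q * Λ) {B η β : ℝ} (hB : 0 < B)
    (hη : ((2 * u + 1) ^ J + 1) ^ (1 + 2 * u * (J * θ J)) * 2 ^ (2 * u) *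
      ((2 ^ u + 1) ^ τ * τ ^ (2 * τ)) ≤ η * B ^ (2 * τ))
    (hβ0 : 0 < β) (hβ : (1 + 4 * β) ^ k ≤ 2 ^ J) {ε : ℝ}
    (hε : ((2 * u + 1) ^ J + 1) ^ q * B * (1 + 1 / (g * β)) ^ u / 2 ^ u + η ≤ ε) (c : Circuit N)
    (hc : ∀ x : Fin N → Bool, c.eval x ↔ pval (List.ofFn x) n W (2 * τ) % 2 = 1) :
    1 / 3 - ε ≤ 2 * c.size * (ε + c.size / 2 ^ k) := by
  obtain ⟨p, hp, hp1, hp2⟩ := Nat.exists_prime_lt_and_le_two_mul (2 ^ u) (by positivity)
  have := Fact.mk hp
  have : Nonempty (Fin g) := ⟨⟨0, hg0⟩⟩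
  have hpW : p < 2 ^ W := by
    have : 2 ^ (u + 2) ≤ 2 ^ W := Nat.pow_le_pow_right (by omega) hu
    rw [pow_add] at this
    omega
  obtain ⟨m1, m2⟩ := mu_bounds hp.two_le
  have hψ : ∀ c, |par p c| ≤ 1 := by
    intro c
    unfold par
    rw [abs_le]
    split_ifs <;> constructor <;> linarith
  obtain ⟨h, hh⟩ := core (ι := Fin u) (κ := Fin g) (H := Fin (2 * τ) → ZMod p)
    (fun h y => par p (pev h (hs y))) (fun _ _ => hψ _) (τ := τ)
    (fun o x₀ z hz s₀ hs₀ => pev_vanish (par p) (sum_par p) (fun s => (hs (z s) : ZMod p)) s₀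
      fun s hne h => hs₀ s hne (hs_inj hp1.le o x₀ (hz s) (hz s₀) h))
    (Fintype.card_fin u) (Fintype.card_fin g) h0 hΛ hJ hθ hq hB hη hβ0 hβ
  have hev : ∀ y : Fin u × Fin g → Bool, c.eval (fun j : Fin N => wd n W (fields g h) y j) ↔
      (pev h (hs y)).val % 2 = 1 := fun y => by rw [hc, pval_wd h y hn hN hg hpW]
  refine circ_bound (V := Fin u × Fin g) (fun y j => wd n W (fields g h) y j)
    (fun i => wd_cases n W _ i) c (fun y => par p (pev h (hs y))) (fun _ => hψ _)
    (fun y hy => ?_) (fun y hy => ?_) (fun y hy => ?_) fun C hC => ?_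
  · rw [hev] at hy; simp only [par, if_pos hy]; linarith
  · rw [hev] at hy; simp only [par, if_pos hy]; linarith
  · rw [hev] at hy; simp only [par, if_neg hy]; linarith
  · refine (hh C hC).trans ?_
    rw [Fintype.card_prod, Fintype.card_fin, Fintype.card_fin]
    gcongr

end Crest.Agent.R291
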