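import Crest.Agent.R291.Embed

/-!
Row 291.  Choice of the parameters.
-/

set_option autoImplicit false

namespace Crest.Agent.R291

open Finset Filter Crest.Depth3

theorem polylog_le (C d : ℕ) : ∃ R, ∀ r, R ≤ r → C * r.size ^ d ≤ r := by
  have h := tendsto_pow_const_div_const_pow_of_one_lt d (r := 2) (by norm_num)
  have h1 := h.eventually (gt_mem_nhds (show (0 : ℝ) < 1 / (2 * C + 1) by positivity))
  obtain ⟨M, hM⟩ := eventually_atTop.1 h1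
  refine ⟨2 ^ M, fun r hr => ?_⟩
  have h2 : M < r.size := Nat.lt_size.2 hr
  have h3 := hM r.size h2.le
  rw [div_lt_div_iff₀ (by positivity) (by positivity), one_mul] at h3
  have h4 : r.size ^ d * (2 * C + 1) < 2 ^ r.size := by exact_mod_cast h3
  obtain ⟨k, hk⟩ : ∃ k, r.size = k + 1 := ⟨r.size - 1, by omega⟩
  have h5 : 2 ^ k ≤ r := Nat.lt_size.1 (by omega)
  have h6 : 2 ^ r.size = 2 * 2 ^ k := by rw [hk, pow_succ, mul_comm]
  nlinarith [Nat.zero_le (r.size ^ d)]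

theorem beta_ok {g v D : ℕ} (hg : 0 < g) (hv : v ≤ 2 * D * g) :
    (1 + 4 * (12 / g : ℝ)) ^ (2 * v) ≤ 2 ^ (384 * D) := by
  have hg' : (0 : ℝ) < g := by positivity
  have h1 : (1 + 4 * (12 / g : ℝ)) ≤ Real.exp (48 / g) := by
    have := Real.add_one_le_exp (48 / g : ℝ)
    have e : 4 * (12 / g : ℝ) = 48 / g := by ring
    linarith
  have h2 : Real.exp (48 / g) ^ (2 * v) ≤ Real.exp 1 ^ (192 * D) := by
    rw [← Real.exp_nat_mul, ← Real.exp_nat_mul, Real.exp_le_exp, mul_div_assoc', div_le_iff₀ hg']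
    have : (v : ℝ) ≤ 2 * D * g := by exact_mod_cast hv
    push_cast
    nlinarith
  have h3 : Real.exp 1 ≤ 2 ^ 2 := Real.exp_one_lt_d9.le.trans (by norm_num)
  calc _ ≤ Real.exp (48 / g) ^ (2 * v) := by gcongr
    _ ≤ Real.exp 1 ^ (192 * D) := h2
    _ ≤ (2 ^ 2) ^ (192 * D) := by gcongr
    _ = _ := by rw [← pow_mul]; congr 1; ring

theorem eta_ok {v J E T τ : ℕ} (hv : 1 ≤ v) (hJ : 1 ≤ J) (hT : 1 ≤ T) (hE1 : 1 ≤ E)
    (hE : (2 * (16 * v) + 1) ^ J + 1 ≤ 2 ^ E) (hτ : τ ≤ 2 ^ v) (h : 14 * (E * (J * T)) ≤ τ) :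
    ((2 * (16 * v) + 1) ^ J + 1) ^ (1 + 2 * (16 * v) * (J * T)) * 2 ^ (2 * (16 * v)) *
      ((2 ^ (16 * v) + 1) ^ τ * τ ^ (2 * τ)) * 2 ^ v ≤ (2 ^ (12 * v)) ^ (2 * τ) := by
  have h1 : 2 ^ (16 * v) + 1 ≤ 2 ^ (16 * v + 1) := by
    have : 1 ≤ 2 ^ (16 * v) := Nat.one_le_two_pow
    rw [pow_succ]; omega
  calc _ ≤ (2 ^ E) ^ (1 + 2 * (16 * v) * (J * T)) * 2 ^ (2 * (16 * v)) *
      ((2 ^ (16 * v + 1)) ^ τ * (2 ^ v) ^ (2 * τ)) * 2 ^ v := by gcongr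
    _ ≤ _ := by
      simp only [← pow_mul, ← pow_add]
      refine Nat.pow_le_pow_right (by omega) ?_
      set P := J * T with hP
      have hP1 : 1 ≤ P := Nat.mul_pos hJ hT
      have a1 : 1 ≤ E * P := Nat.mul_pos hE1 hP1
      have a2 : E ≤ v * (E * P) := by nlinarith [Nat.mul_pos hv hP1]
      have a3 : v ≤ v * (E * P) := Nat.le_mul_of_pos_right _ a1
      have a4 : τ ≤ v * τ := Nat.le_mul_of_pos_left _ hv
      have a5 : v * (14 * (E * P)) ≤ v * τ := Nat.mul_le_mul_left _ h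
      nlinarith

theorem lower (a : ℕ) (ha : 1 ≤ a) : ∃ R, ∀ N, R ≤ rt N → ∀ c : Circuit N,
    (∀ x : Fin N → Bool, c.eval x ↔ List.ofFn x ∈ lang) → 2 ^ (a * (N.sqrt + 1)) < c.size := by
  obtain ⟨D, hD⟩ : ∃ D, D = 192 * (a + 5) ^ 2 := ⟨_, rfl⟩
  obtain ⟨J, hJ⟩ : ∃ J, J = 384 * D := ⟨_, rfl⟩
  obtain ⟨R, hR⟩ := polylog_le (8 * (14 * (5 * J * (J * (640 * J ^ 2) ^ 3 ^ J)))) (3 ^ J + 1)
  refine ⟨max R D, fun N hN c hc => ?_⟩
  obtain ⟨hr1, hr2⟩ := rt_spec N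
  obtain ⟨r, hr⟩ : ∃ r, r = rt N := ⟨_, rfl⟩
  rw [← hr] at hN hr1 hr2
  have hrR := hR r (le_of_max_le_left hN)
  have hrD : D ≤ r := le_of_max_le_right hN
  have hD1 : 64 * a + 82 ≤ D := by rw [hD]; nlinarith only [Nat.zero_le a, Nat.zero_le (a ^ 2)]
  have hJ1 : 1 ≤ J := by omega
  have hr0 : 82 ≤ r := by omega
  obtain ⟨l, hl⟩ : ∃ l, l = r.size := ⟨_, rfl⟩
  rw [← hl] at hrR
  have hl1 : 1 ≤ l := hl ▸ Nat.size_pos.2 (by omega)
  have hl2 : r < 2 ^ l := hl ▸ Nat.lt_size_self r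
  obtain ⟨s, hs⟩ : ∃ s, s = N.sqrt + 1 := ⟨_, rfl⟩
  have hs1 : r ^ 2 ≤ s := by
    have : r ^ 2 ≤ N.sqrt := Nat.le_sqrt'.2 (by rw [← pow_mul]; exact hr1)
    omega
  have hs2 : s ≤ 4 * r ^ 2 := by
    have : N.sqrt < (r + 1) ^ 2 := Nat.sqrt_lt'.2 (by rw [← pow_mul]; exact hr2)
    nlinarith only [this, hs, hr0]
  have hs3 : s ^ 2 ≤ 12 * (N / 2) := by
    have h1 : N.sqrt ^ 2 ≤ N := Nat.sqrt_le' N
    have h2 : 2 ≤ N.sqrt := by nlinarith only [hs1, hs, hr0]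
    have h3 : s ^ 2 ≤ 4 * N.sqrt ^ 2 := by rw [hs]; nlinarith only [h2]
    have h4 : 2 ≤ N := by nlinarith only [h1, h2]
    omega
  obtain ⟨v, hv⟩ : ∃ v, v = a * s + 5 := ⟨_, rfl⟩
  have hrv : r ≤ v := by
    have h1 : s ≤ a * s := Nat.le_mul_of_pos_left _ ha
    have h2 : r ≤ r ^ 2 := Nat.le_self_pow (by omega) _
    omega
  obtain ⟨g, hg⟩ : ∃ g, g = v / D := ⟨_, rfl⟩
  have hg0 : 0 < g := hg ▸ Nat.div_pos (hrD.trans hrv) (by omega)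
  have hg1 : D * g ≤ v := hg ▸ Nat.mul_div_le v D
  have hg2 : v ≤ 2 * D * g := by
    have := Nat.lt_mul_div_succ v (show 0 < D by omega)
    rw [← hg] at this
    nlinarith only [this, hg0, Nat.zero_le D]
  obtain ⟨E, hE⟩ : ∃ E, E = 5 * J * l := ⟨_, rfl⟩
  obtain ⟨Λ, hΛ⟩ : ∃ Λ, Λ = 640 * J ^ 2 * l := ⟨_, rfl⟩
  obtain ⟨τ, hτ⟩ : ∃ τ, τ = r / 8 := ⟨_, rfl⟩
  have hJl : 1 ≤ J * l := Nat.mul_pos hJ1 hl1
  have hΛ1 : 4 * J ≤ Λ := by rw [hΛ]; nlinarith only [hJl, hJ1]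
  have hτ1 : 14 * (E * (J * Λ ^ 3 ^ J)) ≤ τ := by
    rw [hτ, Nat.le_div_iff_mul_le (by omega)]
    refine le_trans (le_of_eq ?_) hrR
    rw [hE, hΛ, mul_pow _ l, pow_succ l]
    ring
  have hΛp : 1 ≤ Λ ^ 3 ^ J := Nat.one_le_pow _ _ (by omega)
  have hE1 : 1 ≤ E := by rw [hE, mul_assoc]; omega
  have hEv : E ≤ v := by
    have : E ≤ E * (J * Λ ^ 3 ^ J) := Nat.le_mul_of_pos_right _ (Nat.mul_pos hJ1 hΛp)
    omega
  have hu : 16 * v + 2 ≤ r ^ 3 := by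
    have h1 : a * s ≤ a * (4 * r ^ 2) := Nat.mul_le_mul_left _ hs2
    have h2 : (64 * a + 82) * r ^ 2 ≤ r * r ^ 2 := Nat.mul_le_mul_right _ (by omega)
    have h3 : 1 ≤ r ^ 2 := Nat.one_le_pow _ _ (by omega)
    nlinarith only [h1, h2, h3, hv]
  have hQ : (2 * (16 * v) + 1) ^ J + 1 ≤ 2 ^ E := by
    have h1 : 2 * (16 * v) + 1 ≤ (2 ^ l) ^ 4 := by
      have a1 : r ^ 4 ≤ (2 ^ l) ^ 4 := Nat.pow_le_pow_left hl2.le 4
      have a2 : 2 * r ^ 3 ≤ r * r ^ 3 := Nat.mul_le_mul_right _ (by omega)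
      have a3 : r * r ^ 3 = r ^ 4 := by ring
      omega
    have h2 : (2 * (16 * v) + 1) ^ J ≤ 2 ^ (l * 4 * J) := by
      rw [pow_mul, pow_mul]; exact Nat.pow_le_pow_left h1 J
    have h3 : 2 ^ (l * 4 * J + 1) ≤ 2 ^ E :=
      Nat.pow_le_pow_right (by omega) (by rw [hE]; nlinarith only [hJl])
    have h4 : 1 ≤ 2 ^ (l * 4 * J) := Nat.one_le_two_pow
    rw [pow_succ] at h3
    omega
  obtain ⟨q, hq⟩ : ∃ q, q = v / E := ⟨_, rfl⟩
  have hq1 : E * q ≤ v := hq ▸ Nat.mul_div_le v E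
  have hq2 : v ≤ 2 * E * q := by
    have h1 := Nat.lt_mul_div_succ v (show 0 < E by omega)
    have h2 : 0 < q := hq ▸ Nat.div_pos hEv (by omega)
    rw [← hq] at h1
    nlinarith only [h1, h2, Nat.zero_le E]
  have hη := eta_ok (v := v) (T := Λ ^ 3 ^ J) (by omega) hJ1 hΛp hE1 hQ
    (le_trans (by omega) (Nat.lt_two_pow_self (n := v)).le) hτ1
  have hP : (0 : ℝ) < 2 ^ v := by positivity
  have hg' : (0 : ℝ) < g := by positivity
  have key := bound (N := N) (n := N / 2) (W := r ^ 3) (τ := τ) (u := 16 * v) (g := g)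
    (k := 2 * v) (J := J) (Λ := Λ) (q := q) (θ := fun j => Λ ^ 3 ^ j) hg0
    (by
      have h1 : v ≤ (a + 5) * s := by rw [add_mul]; omega
      have h2 : v * v ≤ ((a + 5) * s) * ((a + 5) * s) := Nat.mul_le_mul h1 h1
      have h3 : v * (D * g) ≤ v * v := Nat.mul_le_mul_left _ hg1
      have h4 : (a + 5) ^ 2 * s ^ 2 ≤ (a + 5) ^ 2 * (12 * (N / 2)) := Nat.mul_le_mul_left _ hs3
      refine Nat.le_of_mul_le_mul_left ?_ (show 0 < D by omega)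
      calc D * (16 * v * g) = 16 * (v * (D * g)) := by ring
        _ ≤ 16 * ((a + 5) ^ 2 * (12 * (N / 2))) := by nlinarith only [h2, h3, h4]
        _ = D * (N / 2) := by rw [hD]; ring)
    (by
      have h1 : 2 * (2 * τ + 2) * r ^ 3 ≤ r * r ^ 3 := Nat.mul_le_mul_right _ (by omega)
      have h2 : r * r ^ 3 = r ^ 4 := by ring
      rw [mul_assoc] at h1
      omega)
    (lt_of_le_of_lt (le_trans (hg ▸ Nat.div_le_self v D) (by omega)) Nat.lt_two_pow_self) hu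
    (by simp only [pow_zero, pow_one]; omega) (by omega) hΛ1
    (fun j => by
      have h1 : Λ ≤ Λ ^ 3 ^ j := Nat.le_self_pow (by positivity) _
      rw [pow_succ 3, pow_mul, pow_succ' _ 2]
      exact Nat.mul_le_mul_right _ h1)
    (by
      calc 2 * (2 * (16 * v) * J) = 64 * J * v := by ring
        _ ≤ 64 * J * (2 * E * q) := Nat.mul_le_mul_left _ hq2
        _ = q * Λ := by rw [hE, hΛ]; ring)
    (B := 2 ^ (12 * v)) (η := 1 / 2 ^ v) (β := 12 / g) (by positivity)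
    (by
      rw [one_div_mul_eq_div, le_div_iff₀ hP]
      exact_mod_cast hη)
    (by positivity) (hJ ▸ beta_ok hg0 hg2) (ε := 2 / 2 ^ v)
    (by
      have h1 : ((2 * ((16 * v : ℕ) : ℝ) + 1) ^ J + 1) ^ q ≤ 2 ^ v := by
        have : ((2 * (16 * v) + 1) ^ J + 1) ^ q ≤ 2 ^ v := (Nat.pow_le_pow_left hQ q).trans (by
          rw [← pow_mul]; exact Nat.pow_le_pow_right (by omega) hq1)
        exact_mod_cast this
      have h2 : (1 + 1 / (g * (12 / g : ℝ))) ^ (16 * v) ≤ 2 ^ (2 * v) := by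
        rw [mul_div_cancel₀ _ hg'.ne', pow_mul, pow_mul]
        gcongr
        norm_num
      have h3 : ((2 * ((16 * v : ℕ) : ℝ) + 1) ^ J + 1) ^ q * 2 ^ (12 * v) *
          (1 + 1 / (g * (12 / g : ℝ))) ^ (16 * v) / 2 ^ (16 * v) ≤
          2 ^ v * 2 ^ (12 * v) * 2 ^ (2 * v) / 2 ^ (16 * v) := by gcongr
      have h4 : (2 : ℝ) ^ v * 2 ^ (12 * v) * 2 ^ (2 * v) / 2 ^ (16 * v) = 1 / 2 ^ v := by
        rw [div_eq_div_iff (by positivity) hP.ne', ← pow_add, ← pow_add, ← pow_add, one_mul]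
        congr 1; ring
      have h5 : (2 : ℝ) / 2 ^ v = 1 / 2 ^ v + 1 / 2 ^ v := by ring
      linarith)
    c (fun x => by rw [hc]; simp [lang, test, hr, hτ])
  by_contra hcon
  rw [← hs] at hcon
  have h1 : (c.size : ℝ) ≤ 2 ^ (a * s) := by exact_mod_cast not_lt.1 hcon
  set Z : ℝ := 2 ^ (a * s) with hZ
  have hZ1 : 1 ≤ Z := one_le_pow₀ (by norm_num)
  have e1 : (2 : ℝ) ^ v = 32 * Z := by rw [hv, pow_add]; ring
  have e2 : (2 : ℝ) ^ (2 * v) = (32 * Z) ^ 2 := by rw [mul_comm, pow_mul, e1]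
  rw [e1, e2] at key
  have h2 : 2 * (c.size : ℝ) * (2 / (32 * Z) + c.size / (32 * Z) ^ 2) ≤
      2 * Z * (2 / (32 * Z) + Z / (32 * Z) ^ 2) := by gcongr
  have h3 : 2 * Z * (2 / (32 * Z) + Z / (32 * Z) ^ 2) = 1 / 8 + 1 / 512 := by
    field_simp; norm_num
  have h4 : 2 / (32 * Z) ≤ 1 / 16 := by
    rw [div_le_div_iff₀ (by positivity) (by norm_num)]; linarith
  linarith

end Crest.Agent.R291
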