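import Crest.Agent.R291.Moment
import Crest.Agent.Lib.PT.Int

/-!
Row 291.  The language and its polynomial-time decision procedure.
-/

set_option autoImplicit false

namespace Crest.Agent.R291

open Finset Crest.Agent.PT

/-- The `i`-th bit of a word as a number. -/
def bit (w : List Bool) (i : ℕ) : ℕ := if (w.drop i).headI = true then 1 else 0

/-- The number written in the `W` bits starting at position `a`. -/
def num (w : List Bool) (a W : ℕ) : ℕ := ∑ i ∈ range W, bit w (a + i) * 2 ^ i

/-- The hash of the first `n` bits with block length `g`. -/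
def hash (w : List Bool) (n g : ℕ) : ℕ := ∑ i ∈ range n, bit w i * 2 ^ (i / g)

/-- The value of the polynomial read from the seed at the hash. -/
def pval (w : List Bool) (n W t : ℕ) : ℕ :=
  (∑ j ∈ range t, num w (n + (j + 2) * W) W * hash w n (num w n W) ^ j) % num w (n + W) W

/-- The integer part of the fourth root. -/
def rt (N : ℕ) : ℕ := ∑ i ∈ range N, if (i + 1) ^ 4 ≤ N then 1 else 0

/-- The decision procedure. -/
def test (w : List Bool) : Bool :=
  decide (pval w (w.length / 2) (rt w.length ^ 3) (2 * (rt w.length / 8)) % 2 = 1)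

/-- The hard language. -/
def lang : Set (List Bool) := {w | test w = true}

theorem rt_le (N : ℕ) : rt N ≤ N := by
  refine (sum_le_card_nsmul _ _ 1 fun i _ => ?_).trans (by simp)
  split_ifs <;> simp

theorem rt_spec (N : ℕ) : rt N ^ 4 ≤ N ∧ N < (rt N + 1) ^ 4 := by
  obtain ⟨r, h1, h2⟩ : ∃ r, r ^ 4 ≤ N ∧ N < (r + 1) ^ 4 := by
    induction N with
    | zero => exact ⟨0, by simp⟩
    | succ N ih =>
        obtain ⟨r, h1, h2⟩ := ih
        by_cases h : N + 1 < (r + 1) ^ 4
        · exact ⟨r, by omega, h⟩
        · refine ⟨r + 1, by omega, ?_⟩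
          have : (r + 1) ^ 4 < (r + 1 + 1) ^ 4 := Nat.pow_lt_pow_left (by omega) (by omega)
          omega
  have hr : r ≤ N := (Nat.le_self_pow (by omega) r).trans h1
  have : rt N = r := by
    unfold rt
    rw [← card_filter]
    have : (range N).filter (fun i => (i + 1) ^ 4 ≤ N) = range r := by
      ext i
      simp only [mem_filter, mem_range]
      constructor
      · rintro ⟨_, h⟩
        have := lt_of_pow_lt_pow_left₀ 4 (by omega) (h.trans_lt h2)
        omega
      · intro h
        exact ⟨by omega, (Nat.pow_le_pow_left (by omega) 4).trans h1⟩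
    rw [this, card_range]
  rw [this]; exact ⟨h1, h2⟩

section
variable {α : Type} [Rp α]

@[fun_prop] theorem ptime_bit {w : α → List Bool} {i : α → ℕ} (hw : PTime w) (hi : PU i) :
    PTime fun a => bit (w a) (i a) := by
  unfold bit; fun_prop

@[fun_prop] theorem ptime_num {w : α → List Bool} {b W : α → ℕ} (hw : PTime w) (hb : PU b)
    (hW : PU W) : PTime fun a => num (w a) (b a) (W a) :=
  PTime.sum_range (g := fun a i => bit (w a) (b a + i) * 2 ^ i) hW (by fun_prop)

@[fun_prop] theorem ptime_hash {w : α → List Bool} {n g : α → ℕ} (hw : PTime w) (hn : PU n)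
    (hg : PTime g) : PTime fun a => hash (w a) (n a) (g a) :=
  PTime.sum_range (g := fun a i => bit (w a) i * 2 ^ (i / g a)) hn (by fun_prop)

@[fun_prop] theorem ptime_pval {w : α → List Bool} {n W t : α → ℕ} (hw : PTime w) (hn : PU n)
    (hW : PU W) (ht : PU t) : PTime fun a => pval (w a) (n a) (W a) (t a) :=
  PTime.mod (PTime.sum_range (g := fun a j => num (w a) (n a + (j + 2) * W a) (W a) *
    hash (w a) (n a) (num (w a) (n a) (W a)) ^ j) ht (by fun_prop)) (by fun_prop)

@[fun_prop] theorem pu_rt {n : α → ℕ} (hn : PU n) : PU fun a => rt (n a) :=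
  PU.of_le (PTime.sum_range (g := fun a i => if (i + 1) ^ 4 ≤ n a then 1 else 0) hn
    (by have := hn.ptime; fun_prop)) hn fun _ => rt_le _

end

theorem ptime_test : PTime test := by
  unfold test; fun_prop

theorem inP_lang : Crest.Complexity.InP lang :=
  ⟨test, PTime.polyTimeComputable _ _ test (fun w => [test w]) (fun _ => ptime_test ())
    fun _ => rfl, fun _ => Iff.rfl⟩

end Crest.Agent.R291
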