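import Mathlib

/-!
Row 291.  A weak, disjoint form of the sparsification lemma of Impagliazzo, Paturi and Zane,
stated for discrepancies.
-/

set_option autoImplicit false

namespace Crest.Agent.R291

open Finset

/-- The subsets of `Ω` with at most `m` elements. -/
def small {α : Type*} (Ω : Finset α) (m : ℕ) : Finset (Finset α) :=
  Ω.powerset.filter fun c => #c ≤ m

theorem mem_small {α : Type*} {Ω c : Finset α} {m : ℕ} : c ∈ small Ω m ↔ c ⊆ Ω ∧ #c ≤ m := by
  simp [small]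

theorem card_small {α : Type*} [DecidableEq α] (Ω : Finset α) (m : ℕ) :
    #(small Ω m) ≤ (#Ω + 1) ^ m := by
  have h1 : small Ω m ⊆ (range (m + 1)).biUnion fun j => powersetCard j Ω := by
    intro c hc
    rw [mem_small] at hc
    simp only [mem_biUnion, mem_range, mem_powersetCard]
    exact ⟨#c, by omega, hc.1, rfl⟩
  refine (card_le_card h1).trans (card_biUnion_le.trans ?_)
  rw [add_pow]
  refine sum_le_sum fun j hj => ?_
  rw [card_powersetCard, one_pow, mul_one]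
  have h2 : 1 ≤ m.choose j := Nat.choose_pos (by simpa [Nat.lt_succ_iff] using hj)
  exact (Nat.choose_le_pow _ _).trans (Nat.le_mul_of_pos_right _ h2)

section Sparse

variable {L X : Type*} [DecidableEq L]

/-- `x` satisfies every clause of `F`. -/
def Sat (sat : L → X → Prop) (F : Finset (Finset L)) (x : X) : Prop :=
  ∀ c ∈ F, ∃ l ∈ c, sat l x

open Classical in
/-- The sum of `ψ` over the points of `X₀` that satisfy `F` and falsify all literals of `R`. -/
noncomputable def disc (X₀ : Finset X) (ψ : X → ℝ) (sat : L → X → Prop)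
    (F : Finset (Finset L)) (R : Finset L) : ℝ :=
  ∑ x ∈ X₀, if Sat sat F x ∧ ∀ l ∈ R, ¬ sat l x then ψ x else 0

/-- Add the clauses of `P` and remove what they subsume. -/
def add (F P : Finset (Finset L)) : Finset (Finset L) :=
  (F.filter fun c => ∀ π ∈ P, ¬ π ⊆ c) ∪ P

/-- The number of `j`-clauses containing `H`. -/
def deg (F : Finset (Finset L)) (j : ℕ) (H : Finset L) : ℕ :=
  #(F.filter fun c => #c = j ∧ H ⊆ c)

/-- The potential of the new clauses. -/
noncomputable def pot (θ : ℕ → ℕ) (G : Finset (Finset L)) : ℝ := ∑ c ∈ G, (1 : ℝ) / θ #c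

/-- The short clauses subsumed by `F`. -/
def up (L₀ : Finset L) (J : ℕ) (F : Finset (Finset L)) : Finset (Finset L) :=
  (small L₀ J).filter fun c => ∃ d ∈ F, d ⊆ c

structure Inv (L₀ : Finset L) (J : ℕ) (θ : ℕ → ℕ) (F G : Finset (Finset L)) : Prop where
  sub : F ⊆ small L₀ J
  anti : ∀ c ∈ F, ∀ d ∈ F, c ⊆ d → c = d
  gsub : G ⊆ F
  ne : ∀ c ∈ G, c.Nonempty
  dg : ∀ l j, deg G j {l} ≤ 2 * θ (j - 1)

theorem sat_add (sat : L → X → Prop) (F P : Finset (Finset L)) (x : X) :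
    Sat sat (add F P) x ↔ Sat sat F x ∧ Sat sat P x := by
  constructor
  · intro h
    have hP : Sat sat P x := fun c hc => h c (mem_union_right _ hc)
    refine ⟨fun c hc => ?_, hP⟩
    by_cases h1 : ∀ π ∈ P, ¬ π ⊆ c
    · exact h c (mem_union_left _ (mem_filter.2 ⟨hc, h1⟩))
    · push Not at h1
      obtain ⟨π, hπ, hπc⟩ := h1
      obtain ⟨l, hl, hs⟩ := hP π hπ
      exact ⟨l, hπc hl, hs⟩
  · rintro ⟨h1, h2⟩ c hc
    rcases mem_union.1 hc with hc | hc
    · exact h1 c (mem_filter.1 hc).1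
    · exact h2 c hc

theorem deg_mono {F G : Finset (Finset L)} (h : G ⊆ F) (j : ℕ) (H : Finset L) :
    deg G j H ≤ deg F j H := card_le_card (filter_subset_filter _ h)

theorem deg_union_le (F G : Finset (Finset L)) (j : ℕ) (H : Finset L) :
    deg (F ∪ G) j H ≤ deg F j H + deg G j H := by
  unfold deg; rw [filter_union]; exact card_union_le _ _

variable {θ : ℕ → ℕ} {Λ J : ℕ}

theorem theta_ge (h0 : 2 ≤ θ 0) (hΛ : 1 ≤ Λ) (hθ : ∀ j, Λ * θ j ^ 2 ≤ θ (j + 1)) (j : ℕ) :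
    2 ≤ θ j := by
  induction j with
  | zero => exact h0
  | succ j ih => have := hθ j; nlinarith

theorem theta_mono (h0 : 2 ≤ θ 0) (hΛ : 1 ≤ Λ) (hθ : ∀ j, Λ * θ j ^ 2 ≤ θ (j + 1)) :
    Monotone θ := by
  refine monotone_nat_of_le_succ fun j => ?_
  have h1 := hθ j
  have h2 := theta_ge h0 hΛ hθ j
  nlinarith

theorem local_pot {L₀ : Finset L} {F G : Finset (Finset L)} (h0 : 2 ≤ θ 0) (hΛ : 1 ≤ Λ)
    (hθ : ∀ j, Λ * θ j ^ 2 ≤ θ (j + 1)) (hI : Inv L₀ J θ F G) (l : L) (i : ℕ) :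
    ∑ c ∈ G.filter (fun c => l ∈ c ∧ i < #c), (1 : ℝ) / θ #c ≤ 2 * J / (Λ * θ i) := by
  have hmaps : ∀ c ∈ G.filter (fun c => l ∈ c ∧ i < #c), #c ∈ Ioc i J := by
    intro c hc
    rw [mem_filter] at hc
    exact mem_Ioc.2 ⟨hc.2.2, (mem_small.1 (hI.sub (hI.gsub hc.1))).2⟩
  rw [← sum_fiberwise_of_maps_to hmaps]
  have hpos : ∀ j, (0 : ℝ) < θ j := fun j => by
    have := theta_ge h0 hΛ hθ j; positivity
  have hΛ' : (0 : ℝ) < Λ := by positivity
  have hb : ∀ j ∈ Ioc i J, ∑ c ∈ (G.filter (fun c => l ∈ c ∧ i < #c)).filter (fun c => #c = j),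
      (1 : ℝ) / θ #c ≤ 2 / (Λ * θ i) := by
    intro j hj
    rw [mem_Ioc] at hj
    have e1 : ∑ c ∈ (G.filter (fun c => l ∈ c ∧ i < #c)).filter (fun c => #c = j),
        (1 : ℝ) / θ #c = #((G.filter (fun c => l ∈ c ∧ i < #c)).filter (fun c => #c = j)) *
          (1 / θ j) := by
      rw [← nsmul_eq_mul, ← sum_const]
      exact sum_congr rfl fun c hc => by rw [(mem_filter.1 hc).2]
    have e2 : #((G.filter (fun c => l ∈ c ∧ i < #c)).filter (fun c => #c = j)) ≤
        2 * θ (j - 1) := by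
      refine le_trans (card_le_card fun c hc => ?_) (hI.dg l j)
      simp only [mem_filter] at hc ⊢
      exact ⟨hc.1.1, hc.2, singleton_subset_iff.2 hc.1.2.1⟩
    obtain ⟨k, rfl⟩ : ∃ k, j = k + 1 := ⟨j - 1, by omega⟩
    simp only [Nat.add_sub_cancel] at e2
    have e3 : (θ i : ℝ) ≤ θ k := by exact_mod_cast theta_mono h0 hΛ hθ (by omega)
    have e4 : (Λ : ℝ) * (θ k : ℝ) ^ 2 ≤ θ (k + 1) := by exact_mod_cast hθ k
    have e5 : (#((G.filter (fun c => l ∈ c ∧ i < #c)).filter (fun c => #c = k + 1)) : ℝ) ≤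
        2 * θ k := by exact_mod_cast e2
    rw [e1]
    have := hpos i; have := hpos k; have := hpos (k + 1)
    calc _ ≤ (2 * θ k : ℝ) * (1 / θ (k + 1)) := by gcongr
      _ ≤ 2 / (Λ * θ i) := by
        rw [mul_one_div, div_le_div_iff₀ (by positivity) (by positivity)]
        have : (Λ : ℝ) * θ i * θ k ≤ Λ * (θ k : ℝ) ^ 2 := by
          rw [sq, ← mul_assoc]; gcongr
        nlinarith
  refine (sum_le_sum hb).trans ?_
  rw [sum_const, nsmul_eq_mul, Nat.card_Ioc]
  have : ((J - i : ℕ) : ℝ) ≤ J := by exact_mod_cast Nat.sub_le _ _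
  have := hpos i
  calc _ ≤ (J : ℝ) * (2 / (Λ * θ i)) := by gcongr
    _ = _ := by ring

theorem sum_le_sum_lit {L₀ : Finset L} {G : Finset (Finset L)} (w : Finset L → ℝ)
    (hw : ∀ c, 0 ≤ w c) (hG : ∀ c ∈ G, c ⊆ L₀ ∧ c.Nonempty) :
    ∑ c ∈ G, w c ≤ ∑ l ∈ L₀, ∑ c ∈ G.filter (fun c => l ∈ c), w c := by
  simp only [sum_filter]
  rw [sum_comm]
  refine sum_le_sum fun c hc => ?_
  obtain ⟨h1, l, hl⟩ := hG c hc
  have := single_le_sum (f := fun l => if l ∈ c then w c else 0)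
    (fun l _ => by split_ifs; exacts [hw c, le_rfl]) (h1 hl)
  simpa [hl] using this

theorem pot_le {L₀ : Finset L} {F G : Finset (Finset L)} (h0 : 2 ≤ θ 0) (hΛ : 1 ≤ Λ)
    (hθ : ∀ j, Λ * θ j ^ 2 ≤ θ (j + 1)) (hI : Inv L₀ J θ F G) :
    pot θ G ≤ #L₀ * J / Λ := by
  refine (sum_le_sum_lit (L₀ := L₀) _ (fun c => by positivity) fun c hc =>
    ⟨(mem_small.1 (hI.sub (hI.gsub hc))).1, hI.ne c hc⟩).trans ?_
  have hb : ∀ l ∈ L₀, ∑ c ∈ G.filter (fun c => l ∈ c), (1 : ℝ) / θ #c ≤ J / Λ := by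
    intro l _
    have e : G.filter (fun c => l ∈ c) = G.filter (fun c => l ∈ c ∧ 0 < #c) :=
      filter_congr fun c _ => ⟨fun h => ⟨h, card_pos.2 ⟨l, h⟩⟩, fun h => h.1⟩
    rw [e]
    refine (local_pot h0 hΛ hθ hI l 0).trans ?_
    have h2 : (2 : ℝ) ≤ θ 0 := by exact_mod_cast h0
    have hΛ' : (0 : ℝ) < Λ := by positivity
    rw [div_le_div_iff₀ (by positivity) hΛ']
    have : (0 : ℝ) ≤ J * Λ := by positivity
    nlinarith
  refine (sum_le_sum hb).trans ?_
  rw [sum_const, nsmul_eq_mul, mul_div_assoc]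

theorem step {L₀ : Finset L} {F G P : Finset (Finset L)} (h0 : 2 ≤ θ 0) (hΛ : 1 ≤ Λ)
    (hJ : 4 * J ≤ Λ) (hθ : ∀ j, Λ * θ j ^ 2 ≤ θ (j + 1)) (hI : Inv L₀ J θ F G) {i : ℕ}
    (hi : 1 ≤ i) (hne : P.Nonempty) (hP : ∀ π ∈ P, #π = i ∧ ∃ c ∈ F, π ⊂ c)
    (hF : ∀ l, deg F i {l} ≤ θ (i - 1)) (hP' : ∀ l, deg P i {l} ≤ θ (i - 1)) :
    Inv L₀ J θ (add F P) (add G P) ∧ pot θ G + #P / (2 * θ i) ≤ pot θ (add G P) ∧
      #(up L₀ J F) < #(up L₀ J (add F P)) := by
  have hns : ∀ π ∈ P, ∀ d ∈ F, ¬ d ⊆ π := by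
    intro π hπ d hd hdπ
    obtain ⟨c, hc, hπc⟩ := (hP π hπ).2
    have := hI.anti d hd c hc (hdπ.trans hπc.subset)
    subst this
    exact hπc.not_subset hdπ
  have hPs : ∀ π ∈ P, π ∈ small L₀ J := by
    intro π hπ
    obtain ⟨c, hc, hπc⟩ := (hP π hπ).2
    have := mem_small.1 (hI.sub hc)
    exact mem_small.2 ⟨hπc.subset.trans this.1, (card_le_card hπc.subset).trans this.2⟩
  refine ⟨⟨?_, ?_, ?_, ?_, ?_⟩, ?_, ?_⟩
  · intro c hc
    rcases mem_union.1 hc with hc | hc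
    · exact hI.sub (mem_filter.1 hc).1
    · exact hPs c hc
  · intro c hc d hd hcd
    rcases mem_union.1 hc with hc | hc <;> rcases mem_union.1 hd with hd | hd
    · exact hI.anti c (mem_filter.1 hc).1 d (mem_filter.1 hd).1 hcd
    · exact absurd hcd (hns d hd c (mem_filter.1 hc).1)
    · exact absurd hcd ((mem_filter.1 hd).2 c hc)
    · exact eq_of_subset_of_card_le hcd (by rw [(hP c hc).1, (hP d hd).1])
  · exact union_subset_union_left (filter_subset_filter _ hI.gsub)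
  · intro c hc
    rcases mem_union.1 hc with hc | hc
    · exact hI.ne c (mem_filter.1 hc).1
    · exact card_pos.1 (by rw [(hP c hc).1]; omega)
  · intro l j
    refine (deg_union_le _ _ _ _).trans ?_
    by_cases hj : j = i
    · subst hj
      have h1 := (deg_mono ((filter_subset (fun c => ∀ π ∈ P, ¬ π ⊆ c) G).trans hI.gsub) j
        {l}).trans (hF l)
      have h2 := hP' l
      omega
    · have h1 := (deg_mono (filter_subset (fun c => ∀ π ∈ P, ¬ π ⊆ c) G) j {l}).trans (hI.dg l j)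
      have h2 : deg P j {l} = 0 := by
        unfold deg
        rw [card_eq_zero, filter_eq_empty_iff]
        intro π hπ h
        exact hj (h.1.symm.trans (hP π hπ).1)
      omega
  · have hdisj : Disjoint (G.filter fun c => ∀ π ∈ P, ¬ π ⊆ c) P := by
      rw [disjoint_left]
      intro c hc hcP
      exact (mem_filter.1 hc).2 c hcP Subset.rfl
    have hpos : (0 : ℝ) < θ i := by have := theta_ge h0 hΛ hθ i; positivity
    have hΛ' : (0 : ℝ) < Λ := by positivity
    have e1 : pot θ (add G P) = pot θ (G.filter fun c => ∀ π ∈ P, ¬ π ⊆ c) + #P / θ i := by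
      unfold pot add
      rw [sum_union hdisj]
      congr 1
      rw [div_eq_mul_one_div (#P : ℝ), ← nsmul_eq_mul, ← sum_const]
      exact sum_congr rfl fun c hc => by rw [(hP c hc).1]
    have e2 : pot θ G = pot θ (G.filter fun c => ∀ π ∈ P, ¬ π ⊆ c) +
        pot θ (G.filter fun c => ¬ ∀ π ∈ P, ¬ π ⊆ c) := by
      unfold pot; rw [sum_filter_add_sum_filter_not]
    have e3 : pot θ (G.filter fun c => ¬ ∀ π ∈ P, ¬ π ⊆ c) ≤
        ∑ π ∈ P, ∑ c ∈ G.filter (fun c => π ⊆ c), (1 : ℝ) / θ #c := by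
      unfold pot
      simp only [sum_filter]
      rw [sum_comm]
      refine sum_le_sum fun c _ => ?_
      split_ifs with h
      · exact sum_nonneg fun π _ => by split_ifs <;> positivity
      · push Not at h
        obtain ⟨π, hπ, hπc⟩ := h
        have := single_le_sum (f := fun π => if π ⊆ c then (1 : ℝ) / θ #c else 0)
          (fun π _ => by split_ifs <;> positivity) hπ
        simpa [hπc] using this
    have e4 : ∀ π ∈ P, ∑ c ∈ G.filter (fun c => π ⊆ c), (1 : ℝ) / θ #c ≤ 1 / (2 * θ i) := by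
      intro π hπ
      obtain ⟨l, hl⟩ : π.Nonempty := card_pos.1 (by rw [(hP π hπ).1]; omega)
      refine le_trans (sum_le_sum_of_subset_of_nonneg (fun c hc => ?_)
        fun c _ _ => by positivity) ((local_pot h0 hΛ hθ hI l i).trans ?_)
      · rw [mem_filter] at hc ⊢
        refine ⟨hc.1, hc.2 hl, ?_⟩
        by_contra hcard
        have := eq_of_subset_of_card_le hc.2 (by rw [(hP π hπ).1]; omega)
        exact hns π hπ c (hI.gsub hc.1) this.symm.subset
      · have h4 : (4 * J : ℝ) ≤ Λ := by exact_mod_cast hJ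
        rw [div_le_div_iff₀ (by positivity) (by positivity)]
        nlinarith
    have e5 := e3.trans (sum_le_sum e4)
    rw [sum_const, nsmul_eq_mul] at e5
    rw [e1, e2]
    have e6 : (#P : ℝ) / θ i = #P / (2 * θ i) + #P * (1 / (2 * θ i)) := by
      field_simp; ring
    linarith
  · refine card_lt_card ⟨fun c hc => ?_, fun h => ?_⟩
    · simp only [up, mem_filter] at hc ⊢
      obtain ⟨h1, d, hd, hdc⟩ := hc
      refine ⟨h1, ?_⟩
      by_cases h2 : ∀ π ∈ P, ¬ π ⊆ d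
      · exact ⟨d, mem_union_left _ (mem_filter.2 ⟨hd, h2⟩), hdc⟩
      · push Not at h2
        obtain ⟨π, hπ, hπd⟩ := h2
        exact ⟨π, mem_union_right _ hπ, hπd.trans hdc⟩
    · obtain ⟨π, hπ⟩ := hne
      have : π ∈ up L₀ J (add F P) :=
        mem_filter.2 ⟨hPs π hπ, π, mem_union_right _ hπ, Subset.rfl⟩
      obtain ⟨d, hd, hdπ⟩ := (mem_filter.1 (h this)).2
      exact hns π hπ d hd hdπ

/-- The petals of the `j`-clauses containing `H`. -/
def petals (F : Finset (Finset L)) (j : ℕ) (H : Finset L) : Finset (Finset L) :=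
  (F.filter fun c => #c = j ∧ H ⊆ c).image fun c => c \ H

theorem disc_split (X₀ : Finset X) (ψ : X → ℝ) (sat : L → X → Prop) (F : Finset (Finset L))
    (R H : Finset L) (j : ℕ) :
    disc X₀ ψ sat F R = disc X₀ ψ sat (add F {H}) R +
      disc X₀ ψ sat (add F (petals F j H)) (R ∪ H) := by
  classical
  unfold disc
  rw [← sum_add_distrib]
  refine sum_congr rfl fun x _ => ?_
  simp only [sat_add]
  by_cases h : ∃ l ∈ H, sat l x
  · have h1 : Sat sat {H} x := fun c hc => by rw [mem_singleton.1 hc]; exact h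
    have h2 : ¬ ∀ l ∈ R ∪ H, ¬ sat l x := fun h' => by
      obtain ⟨l, hl, hs⟩ := h
      exact h' l (mem_union_right _ hl) hs
    rw [if_neg (c := _ ∧ ∀ l ∈ R ∪ H, ¬ sat l x) (fun h' => h2 h'.2), add_zero]
    congr 1
    exact propext ⟨fun h' => ⟨⟨h'.1, h1⟩, h'.2⟩, fun h' => ⟨h'.1.1, h'.2⟩⟩
  · have h1 : ¬ Sat sat {H} x := fun h' => h (h' H (mem_singleton_self _))
    have h2 : (Sat sat F x ∧ Sat sat (petals F j H) x) ↔ Sat sat F x := by
      refine ⟨fun h' => h'.1, fun h' => ⟨h', fun π hπ => ?_⟩⟩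
      obtain ⟨c, hc, rfl⟩ := mem_image.1 hπ
      obtain ⟨l, hl, hs⟩ := h' c (mem_filter.1 hc).1
      exact ⟨l, mem_sdiff.2 ⟨hl, fun hH => h ⟨l, hH, hs⟩⟩, hs⟩
    have h3 : (∀ l ∈ R ∪ H, ¬ sat l x) ↔ ∀ l ∈ R, ¬ sat l x := by
      refine ⟨fun h' l hl => h' l (mem_union_left _ hl), fun h' l hl hs => ?_⟩
      rcases mem_union.1 hl with hl | hl
      · exact h' l hl hs
      · exact h ⟨l, hl, hs⟩
    rw [if_neg (c := (Sat sat F x ∧ Sat sat {H} x) ∧ _) (fun h' => h1 h'.1.2), zero_add]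
    congr 1
    exact propext (and_congr h2.symm h3.symm)

theorem card_leaf {L₀ : Finset L} {F : Finset (Finset L)} (hmono : Monotone θ)
    (hF : F ⊆ small L₀ J) (hd : ∀ l j, deg F j {l} ≤ θ (j - 1)) :
    #F ≤ 1 + #L₀ * (J * θ J) := by
  have h1 : F ⊆ {∅} ∪ L₀.biUnion fun l => (Icc 1 J).biUnion fun j =>
      F.filter fun c => #c = j ∧ {l} ⊆ c := by
    intro c hc
    rcases c.eq_empty_or_nonempty with rfl | ⟨l, hl⟩
    · simp
    · have := mem_small.1 (hF hc)
      refine mem_union_right _ (mem_biUnion.2 ⟨l, this.1 hl, mem_biUnion.2 ⟨#c, ?_, ?_⟩⟩)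
      · exact mem_Icc.2 ⟨card_pos.2 ⟨l, hl⟩, this.2⟩
      · exact mem_filter.2 ⟨hc, rfl, singleton_subset_iff.2 hl⟩
  refine (card_le_card h1).trans ((card_union_le _ _).trans ?_)
  rw [card_singleton]
  refine Nat.add_le_add_left (card_biUnion_le.trans ?_) _
  rw [← smul_eq_mul, ← sum_const]
  refine sum_le_sum fun l _ => card_biUnion_le.trans ?_
  have : J * θ J = ∑ _j ∈ Icc 1 J, θ J := by simp
  rw [this]
  refine sum_le_sum fun j hj => (hd l j).trans (hmono ?_)
  have := (mem_Icc.1 hj).2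
  omega

theorem sparse_aux (X₀ : Finset X) (ψ : X → ℝ) (sat : L → X → Prop) {L₀ : Finset L} {B : ℝ}
    (h0 : 2 ≤ θ 0) (hΛ : 1 ≤ Λ) (hJ : 4 * J ≤ Λ) (hθ : ∀ j, Λ * θ j ^ 2 ≤ θ (j + 1))
    (hB0 : 0 ≤ B)
    (hB : ∀ F ∈ small (small L₀ J) (1 + #L₀ * (J * θ J)), ∀ R ⊆ L₀, |disc X₀ ψ sat F R| ≤ B)
    (s : ℕ) : ∀ (q : ℕ) (F G : Finset (Finset L)) (R : Finset L), Inv L₀ J θ F G → R ⊆ L₀ →
      #(small L₀ J) ≤ s + #(up L₀ J F) → (#L₀ * J / Λ : ℝ) ≤ pot θ G + q / 2 →
      |disc X₀ ψ sat F R| ≤ (s + 1) ^ q * B := by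
  induction s using Nat.strong_induction_on with
  | _ s ih =>
  intro q F G R hI hR hs hq
  have hmono := theta_mono h0 hΛ hθ
  by_cases hex : ∃ j, ∃ H : Finset L, H.Nonempty ∧ θ (j - #H) ≤ deg F j H
  swap
  · push Not at hex
    have h1 : #F ≤ 1 + #L₀ * (J * θ J) := card_leaf hmono hI.sub fun l j => by
      simpa using (hex j {l} (singleton_nonempty l)).le
    refine (hB F (mem_small.2 ⟨hI.sub, h1⟩) R hR).trans ?_
    exact le_mul_of_one_le_left hB0 (one_le_pow₀ (by have : (0 : ℝ) ≤ s := by positivity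
                                                     linarith))
  classical
  set j := Nat.find hex with hj
  have hjs := Nat.find_spec hex
  rw [← hj] at hjs
  have hmin : ∀ i < j, ∀ l, deg F i {l} ≤ θ (i - 1) := by
    intro i hi l
    have := Nat.find_min hex hi
    push Not at this
    simpa using (this {l} (singleton_nonempty l)).le
  have hfl : ∀ H : Finset L, θ (j - #H) ≤ deg F j H → H ⊆ L₀ := by
    intro H hH
    have h2 := theta_ge h0 hΛ hθ (j - #H)
    obtain ⟨c, hc⟩ : (F.filter fun c => #c = j ∧ H ⊆ c).Nonempty :=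
      card_pos.1 (by unfold deg at hH; omega)
    rw [mem_filter] at hc
    exact hc.2.2.trans (mem_small.1 (hI.sub hc.1)).1
  obtain ⟨H, hH, hmax⟩ := exists_max_image
    (L₀.powerset.filter fun H => H.Nonempty ∧ θ (j - #H) ≤ deg F j H) card (by
      obtain ⟨H, h1, h2⟩ := hjs
      exact ⟨H, mem_filter.2 ⟨mem_powerset.2 (hfl H h2), h1, h2⟩⟩)
  obtain ⟨hHL, hHne, hHd⟩ := mem_filter.1 hH
  rw [mem_powerset] at hHL
  have h2 := theta_ge h0 hΛ hθ (j - #H)
  obtain ⟨c₁, hc₁, c₂, hc₂, hc12⟩ : ∃ c₁ ∈ F.filter fun c => #c = j ∧ H ⊆ c,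
      ∃ c₂ ∈ F.filter fun c => #c = j ∧ H ⊆ c, c₁ ≠ c₂ :=
    one_lt_card.1 (by unfold deg at hHd; omega)
  rw [mem_filter] at hc₁ hc₂
  have hlt : #H < j := by
    by_contra hcon
    have e1 := eq_of_subset_of_card_le hc₁.2.2 (by omega)
    have e2 := eq_of_subset_of_card_le hc₂.2.2 (by omega)
    exact hc12 (e1.symm.trans e2)
  have hHpos : 1 ≤ #H := card_pos.2 hHne
  -- branch A
  obtain ⟨IA, pA, uA⟩ := step (P := {H}) h0 hΛ hJ hθ hI hHpos (singleton_nonempty H)
    (fun π hπ => by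
      rw [mem_singleton.1 hπ]
      exact ⟨rfl, c₁, hc₁.1, hc₁.2.2.ssubset_of_ne fun e => by rw [e] at hlt; omega⟩)
    (hmin _ hlt)
    (fun l => (card_filter_le _ _).trans (by
      have := theta_ge h0 hΛ hθ (#H - 1)
      rw [card_singleton]; omega))
  -- branch B
  have hinj : Set.InjOn (fun c => c \ H) (F.filter fun c => #c = j ∧ H ⊆ c : Set (Finset L)) := by
    intro c hc d hd hcd
    have hc' := (mem_filter.1 (mem_coe.1 hc)).2.2
    have hd' := (mem_filter.1 (mem_coe.1 hd)).2.2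
    rw [← sdiff_union_of_subset hc', ← sdiff_union_of_subset hd']
    exact congrArg (· ∪ H) hcd
  have hcardP : #(petals F j H) = deg F j H := card_image_of_injOn hinj
  obtain ⟨IB, pB, uB⟩ := step (P := petals F j H) (i := j - #H) h0 hΛ hJ hθ hI (by omega)
    (card_pos.1 (by omega))
    (fun π hπ => by
      obtain ⟨c, hc, rfl⟩ := mem_image.1 hπ
      rw [mem_filter] at hc
      refine ⟨by rw [card_sdiff_of_subset hc.2.2, hc.2.1], c, hc.1, ?_⟩
      exact sdiff_ssubset hc.2.2 hHne)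
    (hmin _ (by omega))
    (fun l => by
      by_cases hl : l ∈ H
      · have : deg (petals F j H) (j - #H) {l} = 0 := by
          unfold deg
          rw [card_eq_zero, filter_eq_empty_iff]
          intro π hπ h
          obtain ⟨c, _, rfl⟩ := mem_image.1 hπ
          exact (mem_sdiff.1 (singleton_subset_iff.1 h.2)).2 hl
        omega
      · have e1 : deg (petals F j H) (j - #H) {l} ≤ deg F j (insert l H) := by
          refine le_trans (card_le_card (t := (F.filter fun c => #c = j ∧ insert l H ⊆ c).image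
            fun c => c \ H) fun π hπ => ?_) card_image_le
          obtain ⟨hπ, h⟩ := mem_filter.1 hπ
          obtain ⟨c, hc, rfl⟩ := mem_image.1 hπ
          rw [mem_filter] at hc
          exact mem_image.2 ⟨c, mem_filter.2 ⟨hc.1, hc.2.1, insert_subset
            (mem_sdiff.1 (singleton_subset_iff.1 h.2)).1 hc.2.2⟩, rfl⟩
        have e2 : ¬ θ (j - #(insert l H)) ≤ deg F j (insert l H) := by
          intro h
          have := hmax (insert l H) (mem_filter.2 ⟨mem_powerset.2 (hfl _ h), insert_nonempty _ _, h⟩)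
          rw [card_insert_of_notMem hl] at this
          omega
        rw [card_insert_of_notMem hl, ← Nat.sub_sub] at e2
        omega)
  have hθpos : (0 : ℝ) < θ (j - #H) := by positivity
  have gB : (1 / 2 : ℝ) ≤ #(petals F j H) / (2 * θ (j - #H)) := by
    have : (θ (j - #H) : ℝ) ≤ #(petals F j H) := by rw [hcardP]; exact_mod_cast hHd
    rw [div_le_div_iff₀ (by norm_num) (by positivity)]
    linarith
  have gA : (0 : ℝ) ≤ #({H} : Finset (Finset L)) / (2 * θ #H) := by positivity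
  have hpB := pot_le h0 hΛ hθ IB
  obtain ⟨q, rfl⟩ : ∃ q', q = q' + 1 := by
    refine ⟨q - 1, ?_⟩
    rcases q with _ | q
    · simp at hq; linarith
    · rfl
  have hup : #(up L₀ J (add F {H})) ≤ #(small L₀ J) := card_filter_le _ _
  obtain ⟨s, rfl⟩ : ∃ s', s = s' + 1 := ⟨s - 1, by omega⟩
  have rA := ih s (by omega) (q + 1) _ _ R IA hR (by omega) (by linarith)
  have rB := ih s (by omega) q _ _ (R ∪ H) IB (union_subset hR hHL) (by omega)
    (by push_cast at hq; linarith)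
  rw [disc_split X₀ ψ sat F R H j]
  refine (abs_add_le _ _).trans ((add_le_add rA rB).trans ?_)
  have hs0 : (0 : ℝ) ≤ s := by positivity
  have : ((s : ℝ) + 1) ^ q ≤ ((s + 1 : ℕ) + 1) ^ q := by push_cast; gcongr; linarith
  calc ((s : ℝ) + 1) ^ (q + 1) * B + (s + 1) ^ q * B
      = ((s : ℝ) + 1) ^ q * (((s + 1 : ℕ) : ℝ) + 1) * B := by push_cast; ring
    _ ≤ (((s + 1 : ℕ) : ℝ) + 1) ^ q * (((s + 1 : ℕ) : ℝ) + 1) * B := by gcongr
    _ = _ := by ring

/-- Sparsification for discrepancies: a bound for all sparse `J`-CNFs gives a bound for all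
`J`-CNFs. -/
theorem sparse (X₀ : Finset X) (ψ : X → ℝ) (sat : L → X → Prop) {L₀ : Finset L} {B : ℝ}
    (h0 : 2 ≤ θ 0) (hΛ : 1 ≤ Λ) (hJ : 4 * J ≤ Λ) (hθ : ∀ j, Λ * θ j ^ 2 ≤ θ (j + 1))
    (hB0 : 0 ≤ B)
    (hB : ∀ F ∈ small (small L₀ J) (1 + #L₀ * (J * θ J)), ∀ R ⊆ L₀, |disc X₀ ψ sat F R| ≤ B)
    {q : ℕ} (hq : 2 * (#L₀ * J) ≤ q * Λ) (F : Finset (Finset L)) (hF : F ⊆ small L₀ J)
    (R : Finset L) (hR : R ⊆ L₀) :
    |disc X₀ ψ sat F R| ≤ (#(small L₀ J) + 1) ^ q * B := by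
  classical
  set F' := F.filter fun c => ∀ d ∈ F, d ⊆ c → d = c with hF'
  have e : disc X₀ ψ sat F R = disc X₀ ψ sat F' R := by
    unfold disc
    refine sum_congr rfl fun x _ => ?_
    have : Sat sat F x ↔ Sat sat F' x := by
      refine ⟨fun h c hc => h c (mem_filter.1 hc).1, fun h c hc => ?_⟩
      obtain ⟨d, hd, hmin⟩ := exists_min_image (F.filter fun d => d ⊆ c) card
        ⟨c, mem_filter.2 ⟨hc, Subset.rfl⟩⟩
      rw [mem_filter] at hd
      obtain ⟨l, hl, hs⟩ := h d (mem_filter.2 ⟨hd.1, fun e he hed => eq_of_subset_of_card_le hed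
        (hmin e (mem_filter.2 ⟨he, hed.trans hd.2⟩))⟩)
      exact ⟨l, hd.2 hl, hs⟩
    simp only [this]
  rw [e]
  refine sparse_aux X₀ ψ sat h0 hΛ hJ hθ hB0 hB _ q F' ∅ R
    ⟨(filter_subset _ _).trans hF, fun c hc d hd hcd => (mem_filter.1 hd).2 c (mem_filter.1 hc).1 hcd,
      empty_subset _, by simp, fun l j => by simp [deg]⟩ hR (Nat.le_add_right _ _) ?_
  have hΛ' : (0 : ℝ) < Λ := by positivity
  have : (2 * (#L₀ * J) : ℝ) ≤ q * Λ := by exact_mod_cast hq
  simp only [pot, sum_empty, zero_add]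
  rw [div_le_div_iff₀ hΛ' (by norm_num)]
  linarith

end Sparse

end Crest.Agent.R291
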